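import Vale.Agent.P273SA.Chn

/-!
# P273S: acyclic carriers; a singular cocycle is given by a function of the vertices
-/

noncomputable section

namespace Vale.Agent.P273SA

open Set Filter Topology Metric Vale.Agent.P223.H Finsupp

variable {Y : Type} [PseudoMetricSpace Y]

/-- star refinement by balls -/
theorem exists_star (hY : SLC Y) {R : Y → ℝ} (hR : ∀ y, 0 < R y) : ∃ r : Y → ℝ, (∀ y, 0 < r y) ∧
    ∀ y, ∃ (y' : Y) (V : Set Y), ContractibleSpace V ∧ V ⊆ ball y' (R y') ∧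
      ∀ z, (ball z (r z) ∩ ball y (r y)).Nonempty → ball z (r z) ⊆ V := by
  choose V hV1 hV2 hV3 using fun y => hY y _ (ball_mem_nhds y (hR y))
  let T : Y → Set ℝ := fun z => {t | t ≤ 1 ∧ ∃ y, ball z t ⊆ V y}
  have hb : ∀ z, BddAbove (T z) := fun z => ⟨1, fun t ht => ht.1⟩
  have hp : ∀ z, ∃ t ∈ T z, 0 < t := fun z => by
    obtain ⟨t, ht, h⟩ := Metric.mem_nhds_iff.1 (hV1 z)
    exact ⟨min t 1, ⟨min_le_right _ _, z, (ball_subset_ball (min_le_left _ _)).trans h⟩,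
      lt_min ht one_pos⟩
  have he : ∀ z, 0 < sSup (T z) := fun z => by
    obtain ⟨t, ht, h⟩ := hp z
    exact h.trans_le (le_csSup (hb z) ht)
  have hl : ∀ z y, sSup (T z) ≤ sSup (T y) + dist z y := fun z y => by
    obtain ⟨t₀, ht₀, -⟩ := hp z
    refine csSup_le ⟨t₀, ht₀⟩ fun t ⟨h1, x, h2⟩ => ?_
    have : t - dist z y ∈ T y := ⟨by linarith [dist_nonneg (x := z) (y := y)], x,
      (ball_subset_ball' (by rw [dist_comm]; linarith)).trans h2⟩
    linarith [le_csSup (hb y) this]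
  refine ⟨fun z => sSup (T z) / 8, fun z => by have := he z; positivity, fun y => ?_⟩
  obtain ⟨t₀, ht₀, -⟩ := hp y
  obtain ⟨t, ⟨-, y', h2⟩, h3⟩ := exists_lt_of_lt_csSup ⟨t₀, ht₀⟩ (half_lt_self (he y))
  refine ⟨y', V y', hV3 y', hV2 y', fun z ⟨w, h4, h5⟩ => (ball_subset_ball' ?_).trans h2⟩
  rw [mem_ball] at h4 h5
  have h6 := dist_triangle_left z y w
  have h7 := hl z y
  have h8 := he y
  linarith

section gac

variable {S : ℕ → Type} (d : ∀ p, Fin (p + 1) → S (p + 1) → S p) (car : ∀ p, S p → Set Y)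

/-- the alternating sum over the faces -/
def fsum {M : Type} [AddCommGroup M] [Module ℝ M] {p : ℕ} (u : S p → M) (s : S (p + 1)) : M :=
  ∑ i : Fin (p + 1), (-1 : ℝ) ^ (i : ℕ) • u (d p i s)

/-- `s` is small -/
def Sml (ρ : Y → ℝ) {p : ℕ} (s : S p) : Prop := ∃ y, car p s ⊆ ball y (ρ y)

/-- `s` and the chain `z` are in one small ball -/
def Tog (R : Y → ℝ) {p k : ℕ} (s : S p) (z : Chain k Y) : Prop :=
  ∃ y, car p s ⊆ ball y (R y) ∧ z ∈ In (ball y (R y)) k

variable {d car}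

theorem fsum_fsum (hdd : ∀ p (s : S (p + 2)) (i : Fin (p + 2)) (j : Fin (p + 1)),
      d p (j.predAbove i) (d (p + 1) (i.succAbove j) s) = d p j (d (p + 1) i s))
    {M : Type} [AddCommGroup M] [Module ℝ M] {p : ℕ} (u : S p → M) (s : S (p + 2)) :
    fsum d (fsum d u) s = 0 :=
  alt_alt (fun i j => u (d p j (d (p + 1) i s))) fun i j => by rw [hdd]

theorem map_fsum {M M' : Type} [AddCommGroup M] [Module ℝ M] [AddCommGroup M'] [Module ℝ M']
    (f : M →ₗ[ℝ] M') {p : ℕ} (u : S p → M) (s : S (p + 1)) :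
    f (fsum d u s) = fsum d (fun t => f (u t)) s := by
  simp only [fsum, map_sum, map_smul]

theorem fsum_congr {M : Type} [AddCommGroup M] [Module ℝ M] {p : ℕ} {u v : S p → M}
    {s : S (p + 1)} (h : ∀ i, u (d p i s) = v (d p i s)) : fsum d u s = fsum d v s :=
  Finset.sum_congr rfl fun i _ => by rw [h i]

theorem Sml.face (hc : ∀ p i s, car p (d p i s) ⊆ car (p + 1) s) {ρ : Y → ℝ} {p : ℕ}
    {s : S (p + 1)} (h : Sml car ρ s) (i : Fin (p + 1)) : Sml car ρ (d p i s) :=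
  let ⟨y, hy⟩ := h; ⟨y, (hc p i s).trans hy⟩

/-- One step: a family of small cycles is a family of boundaries. -/
theorem step (hY : SLC Y) {R : Y → ℝ} (hR : ∀ y, 0 < R y) : ∃ r : Y → ℝ, (∀ y, 0 < r y) ∧
    ∀ (A : Set Y) (k : ℕ) (z : Chain (k + 1) Y), (∃ y, A ⊆ ball y (r y)) → bd k z = 0 →
      (∀ V, (∀ x, (ball x (r x) ∩ A).Nonempty → ball x (r x) ⊆ V) → z ∈ In V _) →
      ∃ (y : Y) (w : Chain (k + 2) Y), A ⊆ ball y (R y) ∧ w ∈ In (ball y (R y)) _ ∧
        bd (k + 1) w = z := by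
  obtain ⟨r, h0, hr⟩ := exists_star hY hR
  refine ⟨r, h0, fun A k z ⟨y, hy⟩ hz hV => ?_⟩
  obtain ⟨y', V, h1, h2, h3⟩ := hr y
  obtain ⟨w, h4, h5⟩ := fill h1 (hV V fun x ⟨a, ha⟩ => h3 x ⟨a, ha.1, hy ha.2⟩) hz
  exact ⟨y', w, hy.trans ((h3 y ⟨y, mem_ball_self (h0 y), mem_ball_self (h0 y)⟩).trans h2),
    In.mono h2 h4, h5⟩

theorem Tog.mem {r : Y → ℝ} {p k : ℕ} {s : S p} {z : Chain k Y} (h : Tog car r s z) {A V : Set Y}
    (hn : (car p s).Nonempty) (hA : car p s ⊆ A)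
    (hV : ∀ x, (ball x (r x) ∩ A).Nonempty → ball x (r x) ⊆ V) : z ∈ In V k := by
  obtain ⟨y, h1, h2⟩ := h
  obtain ⟨a, ha⟩ := hn
  exact In.mono (hV y ⟨a, h1 ha, hA ha⟩) h2

end gac

/-- faces of tuples -/
def dT (p : ℕ) (i : Fin (p + 1)) (x : Fin (p + 1) → Y) : Fin p → Y := x ∘ i.succAbove

/-- faces of simplices -/
def dS (p : ℕ) (i : Fin (p + 1)) (σ : Simp (p + 1) Y) : Simp p Y := σ.comp (face p i)

/-- the points of a tuple -/
def cT (p : ℕ) (x : Fin p → Y) : Set Y := range x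

/-- the points of a simplex -/
def cS (p : ℕ) (σ : Simp p Y) : Set Y := range σ

omit [PseudoMetricSpace Y] in
theorem dT_dT (p : ℕ) (s : Fin (p + 2) → Y) (i : Fin (p + 2)) (j : Fin (p + 1)) :
    dT p (j.predAbove i) (dT (p + 1) (i.succAbove j) s) = dT p j (dT (p + 1) i s) :=
  funext fun _ => congrArg s (Fin.succAbove_succAbove_succAbove_predAbove _ _ _)

omit [PseudoMetricSpace Y] in
theorem cT_d (p : ℕ) (i : Fin (p + 1)) (x : Fin (p + 1) → Y) : cT p (dT p i x) ⊆ cT (p + 1) x :=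
  range_comp_subset_range _ _

theorem cS_d (p : ℕ) (i : Fin (p + 1)) (x : Simp (p + 1) Y) : cS p (dS p i x) ⊆ cS (p + 1) x :=
  range_comp_subset_range (face p i) x

theorem cT_vert {p : ℕ} (σ : Simp p Y) : cT p (vert σ) ⊆ cS p σ :=
  range_comp_subset_range (fun i => stdSimplex.vertex i) σ

theorem bd_fsum {p : ℕ} (σ : Simp (p + 1) Y) :
    bd p (single σ 1) = fsum (S := fun p => Simp p Y) dS (fun t => single t (1 : ℝ)) σ := bd_one σ

/-- the constant simplex with one vertex -/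
def pt1 (y : Y) : Simp 1 Y := ContinuousMap.const _ y

theorem dl_one (x y : stdSimplex ℝ (Fin 1)) : x = y := by
  refine stdSimplex.ext (funext fun i => ?_)
  have h1 := stdSimplex.sum_eq_one x
  have h2 := stdSimplex.sum_eq_one y
  rw [Fin.sum_univ_succ, Fin.sum_univ_zero, add_zero] at h1 h2
  rw [Subsingleton.elim i 0]
  exact h1.trans h2.symm

theorem simp0 (s t : Simp 0 Y) : s = t := ContinuousMap.ext fun u =>
  absurd (stdSimplex.sum_eq_one u) (by simp)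

/-- The data in the degrees `p + 1`, `p + 2`. -/
structure Lv (p : ℕ) (ρ R : Y → ℝ) (F : (Fin (p + 1) → Y) → Chain (p + 1) Y)
    (F' : (Fin (p + 2) → Y) → Chain (p + 2) Y) (T : Simp (p + 1) Y → Chain (p + 2) Y)
    (T₀ : Simp p Y → Chain (p + 1) Y) : Prop where
  le : ∀ A : Set Y, (∃ y, A ⊆ ball y (ρ y)) → ∃ y, A ⊆ ball y (R y)
  tF : ∀ x, Sml (S := fun p => Fin p → Y) cT ρ x → Tog (S := fun p => Fin p → Y) cT R x (F x)
  tF' : ∀ x, Sml (S := fun p => Fin p → Y) cT ρ x → Tog (S := fun p => Fin p → Y) cT R x (F' x)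
  tT : ∀ x, Sml (S := fun p => Simp p Y) cS ρ x → Tog (S := fun p => Simp p Y) cS R x (T x)
  bF : ∀ x, Sml (S := fun p => Fin p → Y) cT ρ x →
    bd _ (F' x) = fsum (S := fun p => Fin p → Y) dT F x
  bT : ∀ x, Sml (S := fun p => Simp p Y) cS ρ x →
    bd _ (T x) = single x 1 - F (vert x) - fsum (S := fun p => Simp p Y) dS T₀ x

theorem sml_vert {ρ : Y → ℝ} {p : ℕ} {σ : Simp p Y} (h : Sml (S := fun p => Simp p Y) cS ρ σ) :
    Sml (S := fun p => Fin p → Y) cT ρ (vert σ) :=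
  let ⟨y, hy⟩ := h; ⟨y, (cT_vert σ).trans hy⟩

theorem Lv.cyc {p : ℕ} {ρ R : Y → ℝ} {F : (Fin (p + 1) → Y) → Chain (p + 1) Y}
    {F' : (Fin (p + 2) → Y) → Chain (p + 2) Y} {T : Simp (p + 1) Y → Chain (p + 2) Y}
    {T₀ : Simp p Y → Chain (p + 1) Y} (h : Lv p ρ R F F' T T₀) {x : Simp (p + 2) Y}
    (hx : Sml (S := fun p => Simp p Y) cS ρ x) :
    bd (p + 1) (single x 1 - F' (vert x) - fsum (S := fun p => Simp p Y) dS T x) = 0 := by
  have e1 : fsum (S := fun p => Fin p → Y) dT F (vert x) =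
      fsum (S := fun p => Simp p Y) dS (fun t => F (vert t)) x :=
    Finset.sum_congr rfl fun i _ => congrArg (fun u => _ • F u) (vert_face x i).symm
  have e2 := fsum_fsum (S := fun p => Simp p Y) (d := dS) (fun _ s i j => face_face s i j) T₀ x
  have e3 : fsum (S := fun p => Simp p Y) dS (fun t => bd (p + 1) (T t)) x =
      fsum (S := fun p => Simp p Y) dS (fun t => single t 1) x -
      fsum (S := fun p => Simp p Y) dS (fun t => F (vert t)) x -
      fsum (S := fun p => Simp p Y) dS (fsum (S := fun p => Simp p Y) dS T₀) x := by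
    rw [fsum, fsum, fsum, fsum, ← Finset.sum_sub_distrib, ← Finset.sum_sub_distrib]
    refine Finset.sum_congr rfl fun i _ => ?_
    rw [h.bT _ (hx.face cS_d i), smul_sub, smul_sub]
  rw [map_sub, map_sub, bd_fsum, h.bF _ (sml_vert hx), map_fsum, e1, e3, e2, sub_zero, sub_self]

theorem lv_zero (hY : SLC Y) {R : Y → ℝ} (hR : ∀ y, 0 < R y) :
    ∃ ρ : Y → ℝ, (∀ y, 0 < ρ y) ∧ ∃ F F' T T₀, Lv 0 ρ R F F' T T₀ := by
  obtain ⟨r, h0, hr⟩ := step hY hR
  have hF : ∀ x : Fin 2 → Y, ∃ w : Chain 2 Y, Sml (S := fun p => Fin p → Y) cT r x →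
      Tog (S := fun p => Fin p → Y) cT R x w ∧
      bd _ w = fsum (S := fun p => Fin p → Y) dT (fun v => single (pt1 (v 0)) (1 : ℝ)) x := by
    intro x
    by_cases hx : Sml (S := fun p => Fin p → Y) cT r x
    · obtain ⟨y, w, h1, h2, h3⟩ := hr (cT 2 x) 0
        (fsum (S := fun p => Fin p → Y) dT (fun v => single (pt1 (v 0)) (1 : ℝ)) x) hx (by
          rw [map_fsum]
          simp only [bd_one, fsum, Fin.sum_univ_succ, Fin.sum_univ_zero]
          rw [simp0 ((pt1 (dT 1 0 x 0)).comp _) ((pt1 (dT 1 (Fin.succ 0) x 0)).comp (face 0 0))]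
          simp) fun V hV => Submodule.sum_mem _ fun i _ => Submodule.smul_mem _ _
            (single_mem_In (fun _ => hV _ ⟨_, mem_ball_self (h0 _), mem_range_self _⟩
              (mem_ball_self (h0 _))) _)
      exact ⟨w, fun _ => ⟨⟨y, h1, h2⟩, h3⟩⟩
    · exact ⟨0, fun h => absurd h hx⟩
  choose F' hF' using hF
  have h1 : ∀ A, (∃ y, A ⊆ ball y (r y)) → ∃ y, A ⊆ ball y (R y) := fun A hA =>
    let ⟨y, _, h, _⟩ := hr A 0 0 hA (map_zero _) fun _ _ => zero_mem _; ⟨y, h⟩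
  refine ⟨r, h0, fun v => single (pt1 (v 0)) 1, F', 0, 0, h1, fun x hx => ?_,
    fun x hx => (hF' x hx).1,
    fun x hx => ?_, fun x hx => (hF' x hx).2, fun x _ => ?_⟩
  · obtain ⟨y, hy⟩ := h1 _ hx
    exact ⟨y, hy, single_mem_In (fun _ => hy (mem_range_self _)) _⟩
  · obtain ⟨y, hy⟩ := h1 _ hx
    exact ⟨y, hy, zero_mem _⟩
  · have : pt1 (vert x 0) = x := ContinuousMap.ext fun u => congrArg x (dl_one _ _)
    simp [this, fsum]

theorem lv_succ (hY : SLC Y) (p : ℕ) : ∀ {R : Y → ℝ}, (∀ y, 0 < R y) →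
    ∃ ρ : Y → ℝ, (∀ y, 0 < ρ y) ∧ ∃ F F' T T₀, Lv p ρ R F F' T T₀ := by
  induction p with
  | zero => exact fun hR => lv_zero hY hR
  | succ p ih =>
    intro R hR
    obtain ⟨r, h0, hr⟩ := step hY hR
    obtain ⟨ρ, hρ, F, F', T, T₀, h⟩ := ih h0
    have h1 : ∀ A, (∃ y, A ⊆ ball y (r y)) → ∃ y, A ⊆ ball y (R y) := fun A hA =>
      let ⟨y, _, h, _⟩ := hr A 0 0 hA (map_zero _) fun _ _ => zero_mem _; ⟨y, h⟩
    have hF : ∀ x : Fin (p + 3) → Y, ∃ w : Chain (p + 3) Y, Sml (S := fun p => Fin p → Y) cT ρ x →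
        Tog (S := fun p => Fin p → Y) cT R x w ∧
        bd _ w = fsum (S := fun p => Fin p → Y) dT F' x := by
      intro x
      by_cases hx : Sml (S := fun p => Fin p → Y) cT ρ x
      · obtain ⟨y, w, h1, h2, h3⟩ := hr (cT _ x) (p + 1)
          (fsum (S := fun p => Fin p → Y) dT F' x) (h.le _ hx) (by
            rw [map_fsum, fsum_congr (v := fsum (S := fun p => Fin p → Y) dT F)
              fun i => h.bF _ (hx.face cT_d i), fsum_fsum dT_dT])
          fun V hV => Submodule.sum_mem _ fun i _ => Submodule.smul_mem _ _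
            ((h.tF' _ (hx.face cT_d i)).mem (range_nonempty _) (cT_d _ _ _) hV)
        exact ⟨w, fun _ => ⟨⟨y, h1, h2⟩, h3⟩⟩
      · exact ⟨0, fun h => absurd h hx⟩
    have hT : ∀ x : Simp (p + 2) Y, ∃ w : Chain (p + 3) Y, Sml (S := fun p => Simp p Y) cS ρ x →
        Tog (S := fun p => Simp p Y) cS R x w ∧
        bd _ w = single x 1 - F' (vert x) - fsum (S := fun p => Simp p Y) dS T x := by
      intro x
      by_cases hx : Sml (S := fun p => Simp p Y) cS ρ x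
      · obtain ⟨y, w, h1, h2, h3⟩ := hr (cS _ x) (p + 1)
          (single x 1 - F' (vert x) - fsum (S := fun p => Simp p Y) dS T x) (h.le _ hx) (h.cyc hx)
          fun V hV => sub_mem (sub_mem (single_mem_In (fun t => hV _
            ⟨_, mem_ball_self (h0 _), mem_range_self t⟩ (mem_ball_self (h0 _))) _)
            ((h.tF' _ (sml_vert hx)).mem (range_nonempty _) (cT_vert x) hV))
            (Submodule.sum_mem _ fun i _ => Submodule.smul_mem _ _
              ((h.tT _ (hx.face cS_d i)).mem ⟨_, mem_range_self (stdSimplex.vertex 0)⟩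
                (cS_d _ _ _) hV))
        exact ⟨w, fun _ => ⟨⟨y, h1, h2⟩, h3⟩⟩
      · exact ⟨0, fun h => absurd h hx⟩
    choose F'' hF'' using hF
    choose T' hT' using hT
    refine ⟨ρ, hρ, F', F'', T', T, fun A hA => h1 A (h.le A hA), fun x hx => ?_,
      fun x hx => (hF'' x hx).1, fun x hx => (hT' x hx).1, fun x hx => (hF'' x hx).2,
      fun x hx => (hT' x hx).2⟩
    obtain ⟨y, h2, h3⟩ := h.tF' x hx
    obtain ⟨y', h4⟩ := h1 _ ⟨y, subset_rfl⟩
    exact ⟨y', h2.trans h4, In.mono h4 h3⟩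

/-- **AC**: on small simplices a singular cocycle is, up to a coboundary, a function of the
vertices, and this function is a cocycle on small tuples. -/
theorem ac (hY : SLC Y) {n : ℕ} (c : Simp (n + 1) Y → ℝ) (hc : ∀ τ, cob c τ = 0) :
    ∃ (ρ : Y → ℝ) (φ : (Fin (n + 1) → Y) → ℝ) (b : Simp n Y → ℝ), (∀ y, 0 < ρ y) ∧
      (∀ (x : Fin (n + 2) → Y) y, (∀ i, x i ∈ ball y (ρ y)) → cobT φ x = 0) ∧
      ∀ (σ : Simp (n + 1) Y) y, (∀ t, σ t ∈ ball y (ρ y)) → c σ = φ (vert σ) + cob b σ := by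
  obtain ⟨ρ, hρ, F, F', T, T₀, h⟩ := lv_succ hY n (R := fun _ => 1) fun _ => one_pos
  refine ⟨ρ, fun x => ev c (F x), fun t => ev c (T₀ t), hρ, fun x y hx => ?_, fun σ y hσ => ?_⟩
  · have h1 := congrArg (ev c) (h.bF x ⟨y, range_subset_iff.2 hx⟩)
    rw [ev_bd_zero hc, map_fsum] at h1
    exact h1.symm
  · have h1 := congrArg (ev c) (h.bT σ ⟨y, range_subset_iff.2 hσ⟩)
    rw [ev_bd_zero hc, map_sub, map_sub, map_fsum, ev_single, one_mul] at h1
    have h2 : cob (fun t => ev c (T₀ t)) σ =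
      fsum (S := fun p => Simp p Y) dS (fun t => ev c (T₀ t)) σ := rfl
    rw [h2]
    linarith

end Vale.Agent.P273SA

end
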