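import Vale.Agent.P273SA.Defs
import Vale.Agent.P273.H973.Omega

/-!
# P273S: the Whitney form of a cocycle on tuples
-/

noncomputable section

namespace Vale.Agent.P273SA

open Set Filter Topology Function
open scoped ContDiff

variable {n : ℕ} {A : Type} [NormedAddCommGroup A] [NormedSpace ℝ A] {ι : Type}

/-- The determinant as a form. -/
def detF (n : ℕ) : (Fin n → ℝ) [⋀^Fin n]→L[ℝ] ℝ :=
  { Matrix.detRowAlternating with
    cont := Continuous.matrix_det (A := fun v : Fin n → Fin n → ℝ => Matrix.of v) continuous_id }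

theorem detF_apply (v : Fin n → Fin n → ℝ) : detF n v = (Matrix.of v).det := rfl

/-- The product of one-forms. -/
def wdg (θ : Fin n → A →L[ℝ] ℝ) : A [⋀^Fin n]→L[ℝ] ℝ :=
  (detF n).compContinuousLinearMap (ContinuousLinearMap.pi θ)

theorem wdg_apply (θ : Fin n → A →L[ℝ] ℝ) (v : Fin n → A) :
    wdg θ v = (Matrix.of fun k a => θ k (v a)).det := by
  rw [← Matrix.det_transpose]
  rfl

theorem wdg_zero {θ : Fin n → A →L[ℝ] ℝ} {k : Fin n} (h : θ k = 0) : wdg θ = 0 := by
  ext v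
  rw [wdg_apply]
  exact Matrix.det_eq_zero_of_row_eq_zero k fun a => by simp [h]

/-- `g₀ dg₁ ∧ … ∧ dgₙ` -/
def trm (g : Fin (n + 1) → A → ℝ) (p : A) : A [⋀^Fin n]→L[ℝ] ℝ :=
  g 0 p • wdg fun k => fderiv ℝ (g k.succ) p

theorem trm_apply (g : Fin (n + 1) → A → ℝ) (p : A) (v : Fin n → A) :
    trm g p v = g 0 p * (Matrix.of fun k a => fderiv ℝ (g (Fin.succ k)) p (v a)).det := by
  rw [trm, ContinuousAlternatingMap.smul_apply, wdg_apply, smul_eq_mul]

theorem trm_zero {g : Fin (n + 1) → A → ℝ} {p : A} {k : Fin (n + 1)} (h : g k =ᶠ[𝓝 p] 0) :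
    trm g p = 0 := by
  rw [trm]
  induction k using Fin.cases with
  | zero => rw [h.eq_of_nhds, Pi.zero_apply, zero_smul]
  | succ k => rw [wdg_zero (k := k) (by rw [h.fderiv_eq]; simp), smul_zero]

theorem contDiffAt_det {X : Type} [NormedAddCommGroup X] [NormedSpace ℝ X] {r : WithTop ℕ∞}
    {M : X → Fin n → Fin n → ℝ} {x : X} (h : ∀ k a, ContDiffAt ℝ r (fun y => M y k a) x) :
    ContDiffAt ℝ r (fun y => (Matrix.of (M y)).det) x := by
  simp only [Matrix.det_apply', Matrix.of_apply]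
  exact ContDiffAt.sum fun σ _ => contDiffAt_const.mul (contDiffAt_prod fun i _ => h _ _)

theorem contDiffAt_trm [FiniteDimensional ℝ A] {g : Fin (n + 1) → A → ℝ} {p : A}
    (h : ∀ k, ContDiffAt ℝ ∞ (g k) p) : ContDiffAt ℝ ∞ (trm g) p := by
  refine P273.H973.contDiffAt_alt fun v => ?_
  simp only [trm_apply]
  exact (h 0).mul (contDiffAt_det fun k a =>
    ((h k.succ).fderiv_right (m := ∞) (by simp)).clm_apply contDiffAt_const)

/-- the universal form `t₀ dt₁ ∧ … ∧ dtₙ` -/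
def uni (n : ℕ) : (Fin (n + 1) → ℝ) →L[ℝ] ((Fin (n + 1) → ℝ) [⋀^Fin n]→L[ℝ] ℝ) :=
  (ContinuousLinearMap.proj 0 : (Fin (n + 1) → ℝ) →L[ℝ] ℝ).smulRight
    (wdg fun k => ContinuousLinearMap.proj (Fin.succ k))

theorem extDeriv_uni (t : Fin (n + 1) → ℝ) (v : Fin (n + 1) → Fin (n + 1) → ℝ) :
    extDeriv (fun t => uni n t) t v = (Matrix.of v).det := by
  rw [extDeriv, ContinuousLinearMap.fderiv, ContinuousAlternatingMap.alternatizeUncurryFin_apply,
    Matrix.det_succ_column_zero]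
  refine Finset.sum_congr rfl fun i _ => ?_
  rw [uni, ContinuousLinearMap.smulRight_apply, ContinuousAlternatingMap.smul_apply, wdg_apply,
    ← Matrix.det_transpose, zsmul_eq_mul, smul_eq_mul, mul_assoc]
  push_cast
  rfl

theorem extDeriv_trm {g : Fin (n + 1) → A → ℝ} {p : A} (h : ∀ k, ContDiffAt ℝ ∞ (g k) p)
    (v : Fin (n + 1) → A) :
    extDeriv (trm g) p v = detF (n + 1) fun k a => fderiv ℝ (g k) p (v a) := by
  have h2 : ∀ k, ContDiffAt ℝ 2 (g k) p := fun k => (h k).of_le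
    (WithTop.coe_le_coe.2 le_top : ((2 : ℕ∞) : WithTop ℕ∞) ≤ ((⊤ : ℕ∞) : WithTop ℕ∞))
  have hG : ContDiffAt ℝ 2 (fun q k => g k q) p := contDiffAt_pi.2 h2
  have hd : ∀ᶠ q in 𝓝 p, fderiv ℝ (fun q k => g k q) q =
      ContinuousLinearMap.pi fun k => fderiv ℝ (g k) q := by
    filter_upwards [eventually_all.2 fun k => (h2 k).eventually (by simp)] with q hq
    exact fderiv_pi fun k => (hq k).differentiableAt (by simp)
  have h1 : trm g =ᶠ[𝓝 p] fun q => (uni n fun k => g k q).compContinuousLinearMap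
      (fderiv ℝ (fun q k => g k q) q) := by
    filter_upwards [hd] with q hq
    rw [hq]
    rfl
  have h3 : DifferentiableAt ℝ (fun t => uni n t) fun k => g k p := (uni n).differentiableAt
  have h4 := extDeriv_pullback h3 hG (by simp)
  rw [h1.extDeriv_eq, h4, ContinuousAlternatingMap.compContinuousLinearMap_apply, extDeriv_uni,
    hd.self_of_nhds, detF_apply, ← Matrix.det_transpose]
  rfl

/-- the algebraic identity -/
theorem sum_det {κ : Type} [Fintype κ] (u : κ → Fin (n + 1) → ℝ) (hu : ∑ i, u i = 0)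
    (ν : (Fin (n + 1) → κ) → ℝ) (j : κ)
    (hν : ∀ l : Fin (n + 1) → κ, (∀ k, u (l k) ≠ 0) → cobT ν (Fin.cons j l) = 0) :
    ∑ l : Fin (n + 1) → κ, ν l * detF (n + 1) (fun k => u (l k)) = 0 := by
  classical
  have h1 : ∀ l : Fin (n + 1) → κ, ν l * detF (n + 1) (fun k => u (l k)) =
      ∑ k : Fin (n + 1), (-1 : ℝ) ^ (k : ℕ) * (ν ((Fin.cons j l : Fin (n + 2) → κ) ∘
        k.succ.succAbove) * detF (n + 1) fun k => u (l k)) := by
    intro l
    by_cases h : ∀ k, u (l k) ≠ 0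
    · have h2 := hν l h
      rw [cobT, Fin.sum_univ_succ] at h2
      simp only [Fin.val_zero, pow_zero, one_mul, Fin.val_succ, pow_succ, mul_neg, mul_one,
        neg_mul, Finset.sum_neg_distrib] at h2
      have h3 : (Fin.cons j l : Fin (n + 2) → κ) ∘ Fin.succAbove 0 = l := rfl
      rw [h3, add_neg_eq_zero] at h2
      simp only [← mul_assoc, ← Finset.sum_mul]
      rw [← h2]
    · obtain ⟨k, hk⟩ := not_forall.1 h
      rw [(detF (n + 1)).map_coord_zero k (not_not.1 hk)]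
      simp
  rw [Finset.sum_congr rfl fun l _ => h1 l, Finset.sum_comm]
  refine Finset.sum_eq_zero fun k _ => ?_
  rw [← Finset.mul_sum, ← (Fin.insertNthEquiv (fun _ => κ) k).sum_comp, Fintype.sum_prod_type_right]
  refine mul_eq_zero_of_right _ (Finset.sum_eq_zero fun l' _ => ?_)
  have h2 : ∀ i, (Fin.cons j (Fin.insertNthEquiv (fun _ => κ) k (i, l')) : Fin (n + 2) → κ) ∘
      k.succ.succAbove = (Fin.cons j l' : Fin (n + 1) → κ) := fun i => by
    funext a
    induction a using Fin.cases with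
    | zero => simp
    | succ a => simp [Fin.insertNthEquiv]
  have h3 : ∀ i, (fun a => u (Fin.insertNthEquiv (fun _ => κ) k (i, l') a)) =
      update (k.insertNth 0 fun a => u (l' a)) k (u i) := fun i => by
    funext a
    induction a using Fin.succAboveCases k with
    | x => simp [Fin.insertNthEquiv]
    | p a => simp [Fin.insertNthEquiv]
  simp only [h2, h3, ← Finset.mul_sum]
  have h4 := (detF (n + 1)).toAlternatingMap.toMultilinearMap.map_update_sum Finset.univ k u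
    (k.insertNth 0 fun a => u (l' a))
  rw [hu, MultilinearMap.map_update_zero] at h4
  exact mul_eq_zero_of_right _ h4.symm

/-- A locally finite smooth partition of unity on `U`. -/
structure LF (U : Set A) (g : ι → A → ℝ) : Prop where
  opn : IsOpen U
  sm : ∀ i, ContDiffOn ℝ ∞ (g i) U
  lf : ∀ a ∈ U, ∃ T : Finset ι, ∀ᶠ q in 𝓝 a, ∀ i ∉ T, g i q = 0
  one : ∀ a ∈ U, ∑ᶠ i, g i a = 1

/-- **The Whitney form.** -/
def wh (ν : (Fin (n + 1) → ι) → ℝ) (g : ι → A → ℝ) (p : A) : A [⋀^Fin n]→L[ℝ] ℝ :=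
  ∑ᶠ l : Fin (n + 1) → ι, ν l • trm (g ∘ l) p

theorem wh_eq (ν : (Fin (n + 1) → ι) → ℝ) {g : ι → A → ℝ} {p : A} {T : Finset ι}
    (h : ∀ i ∉ T, g i =ᶠ[𝓝 p] 0) :
    wh ν g p = ∑ l : Fin (n + 1) → T, ν (Subtype.val ∘ l) • trm (g ∘ Subtype.val ∘ l) p := by
  classical
  have hi : Injective fun l : Fin (n + 1) → T => Subtype.val ∘ l :=
    Subtype.val_injective.comp_left
  rw [wh, finsum_eq_sum_of_support_subset (s := Finset.univ.image fun l : Fin (n + 1) → T =>
    Subtype.val ∘ l), Finset.sum_image fun a _ b _ e => hi e]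
  intro l hl
  by_contra h1
  by_cases h2 : ∀ k, l k ∈ T
  · exact h1 (Finset.mem_coe.2 (Finset.mem_image.2 ⟨fun k => ⟨l k, h2 k⟩, Finset.mem_univ _, rfl⟩))
  · obtain ⟨k, hk⟩ := not_forall.1 h2
    exact hl ((congrArg (ν l • ·) (trm_zero (g := g ∘ l) (k := k) (h _ hk))).trans (smul_zero _))

variable {U : Set A} {g : ι → A → ℝ}

theorem LF.sum_one (h : LF U g) {p : A} (hp : p ∈ U) {T : Finset ι} (hT : ∀ i ∉ T, g i p = 0) :
    ∑ i : T, g i p = 1 := by
  rw [← h.one p hp, finsum_eq_sum_of_support_subset (s := T) _ fun i hi =>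
    by_contra fun h1 => hi (hT i h1)]
  exact Finset.sum_coe_sort T fun i => g i p

theorem LF.at (h : LF U g) {p : A} (hp : p ∈ U) (i : ι) : ContDiffAt ℝ ∞ (g i) p :=
  (h.sm i).contDiffAt (h.opn.mem_nhds hp)

theorem wh_ev (ν : (Fin (n + 1) → ι) → ℝ) {p : A} {T : Finset ι}
    (hT : ∀ᶠ q in 𝓝 p, ∀ i ∉ T, g i q = 0) : wh ν g =ᶠ[𝓝 p] fun q =>
      ∑ l : Fin (n + 1) → T, ν (Subtype.val ∘ l) • trm (g ∘ Subtype.val ∘ l) q := by
  filter_upwards [hT.eventually_nhds] with q hq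
  exact wh_eq ν fun i hi => hq.mono fun _ h => h i hi

variable [FiniteDimensional ℝ A]

theorem LF.wh_smooth (h : LF U g) (ν : (Fin (n + 1) → ι) → ℝ) : ContDiffOn ℝ ∞ (wh ν g) U := by
  intro p hp
  obtain ⟨T, hT⟩ := h.lf p hp
  refine (ContDiffAt.congr_of_eventuallyEq ?_ (wh_ev ν hT)).contDiffWithinAt
  exact ContDiffAt.sum fun l _ => (contDiffAt_trm fun k => h.at hp _).const_smul _

theorem LF.wh_closed (h : LF U g) {ν : (Fin (n + 1) → ι) → ℝ} {p : A} (hp : p ∈ U)
    (hν : ∀ l : Fin (n + 2) → ι, (∀ k, p ∈ tsupport (g (l k))) → cobT ν l = 0) :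
    extDeriv (wh ν g) p = 0 := by
  obtain ⟨T, hT⟩ := h.lf p hp
  have hd : ∀ l : Fin (n + 1) → T, DifferentiableAt ℝ (trm (g ∘ Subtype.val ∘ l)) p := fun l =>
    (contDiffAt_trm fun k => h.at hp _).differentiableAt (by simp)
  have hg : ∀ i, DifferentiableAt ℝ (g i) p := fun i => (h.at hp i).differentiableAt (by simp)
  ext v
  have h1 : extDeriv (wh ν g) p v = ∑ l : Fin (n + 1) → T, ν (Subtype.val ∘ l) *
      extDeriv (trm (g ∘ Subtype.val ∘ l)) p v := by
    rw [(wh_ev ν hT).extDeriv_eq, extDeriv, fderiv_fun_sum fun l _ => (hd l).fun_const_smul _,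
      ← ContinuousAlternatingMap.alternatizeUncurryFinCLM_apply, map_sum,
      ContinuousAlternatingMap.sum_apply]
    refine Finset.sum_congr rfl fun l _ => ?_
    rw [fderiv_fun_const_smul (hd l), map_smul]
    rfl
  obtain ⟨j, hj⟩ : ∃ j : T, g j p ≠ 0 := by
    by_contra h2
    have h3 := h.sum_one hp hT.self_of_nhds
    rw [Finset.sum_eq_zero fun i _ => not_not.1 (not_exists.1 h2 i)] at h3
    exact zero_ne_one h3
  have h2 : ∑ i : T, fderiv ℝ (g i) p = 0 := by
    have h3 : (fun q => ∑ i : T, g i q) =ᶠ[𝓝 p] fun _ => 1 := by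
      filter_upwards [hT, h.opn.mem_nhds hp] with q h4 h5
      exact h.sum_one h5 h4
    rw [← fderiv_fun_sum fun i _ => hg _, h3.fderiv_eq, fderiv_fun_const]
    rfl
  rw [h1, ContinuousAlternatingMap.coe_zero, Pi.zero_apply]
  simp only [fun l : Fin (n + 1) → T => extDeriv_trm (g := g ∘ Subtype.val ∘ l)
    (fun k => h.at hp _) v]
  refine sum_det (fun (i : T) a => fderiv ℝ (g i) p (v a)) ?_ (fun l => ν (Subtype.val ∘ l)) j
    fun l hl => ?_
  · funext a
    rw [Finset.sum_apply, ← _root_.sum_apply, h2]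
    rfl
  · refine hν (Subtype.val ∘ (Fin.cons j l : Fin (n + 2) → T)) fun k => ?_
    induction k using Fin.cases with
    | zero => exact subset_tsupport _ hj
    | succ k =>
      by_contra h3
      refine hl k (funext fun a => ?_)
      have h4 : g (l k) =ᶠ[𝓝 p] 0 := notMem_tsupport_iff_eventuallyEq.1 h3
      rw [h4.fderiv_eq]
      simp

end Vale.Agent.P273SA

end
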