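import Vale.Agent.P273SA.Rows
import Vale.Agent.P273SA.AC
import Vale.Agent.P273SA.WH

/-!
# P273S: singular cocycles are given by closed forms
-/

noncomputable section

namespace Vale.Agent.P273SA

open Set Filter Topology MeasureTheory Metric Vale.Agent.P223.H
open scoped ContDiff

/-- The centres of small balls around a point lie in the ball with the largest radius. -/
theorem exists_big {A : Type} [PseudoMetricSpace A] {W : Set A} {ρ : W → ℝ} (hρ : ∀ y, 0 < ρ y)
    {κ : Type} [Finite κ] {l : κ → W} {S : Set κ} (hS : S.Nonempty) {p : A}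
    (h : ∀ k ∈ S, p ∈ ball (l k : A) (ρ (l k) / 2)) :
    ∃ y : W, p ∈ ball (y : A) (ρ y) ∧ ∀ k ∈ S, l k ∈ ball y (ρ y) := by
  obtain ⟨j, hj, hm⟩ := S.toFinite.exists_maximalFor (fun k => ρ (l k)) S hS
  refine ⟨l j, ball_subset_ball (half_le_self (hρ _).le) (h j hj), fun k hk => ?_⟩
  have h1 : ρ (l k) ≤ ρ (l j) := (le_total _ _).elim id fun h => hm hk h
  have h2 := mem_ball.1 (h j hj)
  have h3 := mem_ball.1 (h k hk)
  have h4 := dist_triangle_left (l k : A) (l j) p
  rw [mem_ball, Subtype.dist_eq]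
  linarith

theorem exists_fin {A N ι : Type} [NormedAddCommGroup A] [NormedSpace ℝ A] [TopologicalSpace N]
    [CompactSpace N] {U : Set A} {g : ι → A → ℝ} (h : LF U g) {f : N → A} (hf : Continuous f)
    (hU : ∀ x, f x ∈ U) : ∃ T : Finset ι, ∀ x, ∀ᶠ q in 𝓝 (f x), ∀ i ∉ T, g i q = 0 := by
  classical
  choose T hT using fun x => h.lf (f x) (hU x)
  obtain ⟨t, -, ht⟩ := isCompact_univ.elim_nhds_subcover
    (fun x => {y | ∀ᶠ q in 𝓝 (f y), ∀ i ∉ T x, g i q = 0})
    fun x _ => hf.continuousAt.eventually (hT x).eventually_nhds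
  refine ⟨t.biUnion T, fun y => ?_⟩
  obtain ⟨x, hx, hy⟩ := mem_iUnion₂.1 (ht (mem_univ y))
  filter_upwards [hy] with q hq i hi
  exact hq i fun h => hi (Finset.mem_biUnion.2 ⟨x, hx, h⟩)

/-- **DR** -/
theorem dr (hP : PU) (hI : INTC) : DR := by
  intro m A _ _ _ W hW c hc
  obtain ⟨ρ, φ, b, hρ, hφ, hb⟩ := ac hW c hc
  obtain ⟨U, g, hWU, h1, h2, h3, h4, hg⟩ := hP A W (fun y => ρ y / 2) fun y => half_pos (hρ y)
  have hL : LF U g := ⟨h1, h2, h3, h4⟩
  refine ⟨U, wh φ g, h1, hWU, hL.wh_smooth φ, fun p hp => hL.wh_closed hp fun l hl => ?_, ?_⟩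
  · obtain ⟨y, -, hy⟩ := exists_big hρ (l := l) univ_nonempty fun k _ => hg _ p hp (hl k)
    exact hφ l y fun k => hy k (mem_univ k)
  intro N _ _ _ 𝒜 e₀ z f hm h𝒜 he₀ hF hz hf
  have hfc : Continuous fun x => (f x : A) := continuous_subtype_val.comp f.continuous
  have hfU : ∀ x, (f x : A) ∈ U := fun x => hWU (f x).2
  obtain ⟨T, hT⟩ := exists_fin hL hfc hfU
  let G : T → N → ℝ := fun i x => g i (f x)
  have hG : ∀ i, SmC 𝒜 (G i) := fun i e he => (h2 i).comp (hf e he) fun y _ => hfU _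
  have hG1 : ∀ x, ∑ i, G i x = 1 := fun x => hL.sum_one (hfU x) (hT x).self_of_nhds
  have hs : ∀ i x, x ∈ tsupport (G i) → (f x : A) ∈ ball ((i : W) : A) (ρ i / 2) := fun i x hx =>
    hg i _ (hfU x) (hfc.closure_preimage_subset (Function.support (g i)) hx)
  have hy : ∀ x, ∃ y : W, (f x : A) ∈ ball (y : A) (ρ y) ∧
      ∀ i ∈ {i : T | x ∈ tsupport (G i)}, (i : W) ∈ ball y (ρ y) := fun x => by
    refine exists_big hρ (l := fun i : T => (i : W)) ?_ fun i hi => hs i x hi
    by_contra h0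
    have h5 := hG1 x
    rw [Finset.sum_eq_zero fun i _ => image_eq_zero_of_notMem_tsupport fun h => h0 ⟨i, h⟩] at h5
    exact zero_ne_one h5
  choose Y hY1 hY2 using hy
  have key := hz T G hG hG1 (fun σ => c (f.comp σ)) (fun σ => b (f.comp σ))
    (fun l => φ (Sum.elim f Subtype.val ∘ l))
    (fun x => {q | f q ∈ ball (Y x) (ρ (Y x)) ∧ ∀ i, q ∈ tsupport (G i) → x ∈ tsupport (G i)})
    (fun x => by
      refine Eventually.and (f.continuous.continuousAt.preimage_mem_nhds
        (isOpen_ball.mem_nhds (hY1 x))) (eventually_all.2 fun i => ?_)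
      by_cases hx : x ∈ tsupport (G i)
      · exact Eventually.of_forall fun _ _ => hx
      · filter_upwards [(isClosed_tsupport (G i)).isOpen_compl.mem_nhds hx] with q hq h
        exact absurd h hq)
    (fun τ => hc (f.comp τ)) (fun σ x hσ => hb (f.comp σ) (Y x) fun t => (hσ t).1)
    fun x l hl hr => hφ (Sum.elim f Subtype.val ∘ l) (Y x) fun k => by
      rcases hk : l k with y | i
      · rw [Function.comp_apply, hk]
        exact (hl k y hk).1
      · obtain ⟨q, hq, hq'⟩ := hr k i hk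
        rw [Function.comp_apply, hk]
        exact hY2 x i (hq'.2 i hq)
  have hi := fun l : Fin (m * 2 + 1) → T =>
    (hI m N 𝒜 hm h𝒜 e₀ he₀ hF (G ∘ l) fun k => hG (l k)).const_mul (φ (Subtype.val ∘ l))
  have he : EqOn (fun y => ∑ l : Fin (m * 2 + 1) → T, φ (Subtype.val ∘ l) *
      ((G ∘ l) 0 (e₀.symm y) * (Matrix.of fun k a =>
        fderiv ℝ (fun y => (G ∘ l) (Fin.succ k) (e₀.symm y)) y (bas m a)).det))
      (fun y => wh φ g (f (e₀.symm y)) fun a =>
        fderiv ℝ (fun y => (f (e₀.symm y) : A)) y (bas m a)) e₀.target := by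
    intro y hy
    have hd : DifferentiableAt ℝ (fun y => (f (e₀.symm y) : A)) y :=
      ((hf e₀ he₀).contDiffAt (e₀.open_target.mem_nhds hy)).differentiableAt (by simp)
    beta_reduce
    rw [(wh_ev φ (hT (e₀.symm y))).self_of_nhds, ContinuousAlternatingMap.sum_apply]
    refine Finset.sum_congr rfl fun l _ => ?_
    rw [ContinuousAlternatingMap.smul_apply, trm_apply, smul_eq_mul]
    congr 3
    ext k a
    exact congrArg (fun L : Cm m →L[ℝ] ℝ => L (bas m a))
      (fderiv_comp y ((hL.at (hfU _) _).differentiableAt (by simp)) hd)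
  have hm₀ := e₀.open_target.measurableSet
  refine ⟨IntegrableOn.congr_fun (integrable_finsetSum _ fun l _ => hi l) he hm₀, ?_⟩
  rw [ev_push, key, ← setIntegral_congr_fun hm₀ he, integral_finsetSum _ fun l _ => hi l]
  exact Finset.sum_congr rfl fun l _ => (integral_const_mul _ _).symm

end Vale.Agent.P273SA

end
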