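import Vale.Agent.P273SA.Th
import Vale.Agent.P223.X.FundB

/-!
# P273S: the rows of FUND and DR
-/

noncomputable section

namespace Vale.Agent.P273SA

open Set MeasureTheory Vale.Agent.P223.H Vale.Agent.P223.X Vale.Agent.P223
open scoped ContDiff

section
variable {n : ℕ} {N I₀ : Type} [TopologicalSpace N]

/-- Real version of `Loc`. -/
def LocR (e : J.Ch n N) (p : N) (z : Chain (n + 1) N) : Prop :=
  ∃ (w : E n) (A : Matrix (Fin n) (Fin n) ℝ) (s : Simp (n + 1) N)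
    (b : Chain (n + 2) N) (c : Chain (n + 1) N), 0 < A.det ∧
    (∀ t, s t ∈ e.source ∧ e (s t) = fun j => w j + ∑ i, t i.succ * A i j) ∧
    (∃ t, (∀ i, 0 < t i) ∧ s t = p) ∧ (∀ σ ∈ c.support, ∀ t, σ t ≠ p) ∧
    z = Finsupp.single s 1 + bd _ b + c

/-- Functions of class `C¹`. -/
def SmR (c : I₀ → J.Ch n N) (g : N → ℝ) : Prop :=
  ∀ i, ContDiffOn ℝ 1 (fun y => g ((c i).symm y)) (c i).target

/-- The density of `g₀ dg₁ ∧ … ∧ dgₙ` in the chart `e`. -/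
def ig (e : J.Ch n N) (g : Fin (n + 1) → N → ℝ) (y : E n) : ℝ :=
  g 0 (e.symm y) * jdet (fun k y => g k.succ (e.symm y)) y

/-- Real version of `Full`. -/
def FullR (c : I₀ → J.Ch n N) (i₀ : I₀) : Prop :=
  ∀ i, volume (c i '' ((c i).source \ (c i₀).source)) = 0

end

/-- **LOC**: the cycles of `P223.X.Fund` are affine simplices near every point of every chart. -/
def LOC : Prop := ∀ (n : ℕ) (N I₀ I : Type) [TopologicalSpace N] [CompactSpace N] [T2Space N]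
  [Fintype I] (c : I₀ → J.Ch n N) (C : Cov n N N U1 I) (s : I → I₀) (a : I → E n) (r : I → ℝ)
  (χ : I → E n → ℝ), 1 ≤ n → RAtl c → Bx c C s a r → Part C χ →
  ∃ ε : ℝ, 0 < ε ∧ ∀ (κ : Type) [Fintype κ] (D : κ → I × E n) (P : PUX C κ), Fund.Adp C D P ε →
    ∀ i, ∀ p ∈ (c i).source, LocR (c i) p (Fund.cy C χ D P)

/-- **PER**: their periods. -/
def PER : Prop := ∀ (n : ℕ) (N I : Type) [TopologicalSpace N] [CompactSpace N] [T2Space N]
  [Fintype I] (C : Cov n N N U1 I) (χ : I → E n → ℝ), 1 ≤ n → C.π = ContinuousMap.id N →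
  Part C χ → ∃ ε : ℝ, 0 < ε ∧ ∀ (κ : Type) [Fintype κ] (D : κ → I × E n) (P : PUX C κ),
    Fund.Adp C D P ε → Per (C.Ck 1) (wtX C χ) (Fund.cy C χ D P)

/-- **INT**: the weights are integrals over a chart of full measure. -/
def INT : Prop := ∀ (n : ℕ) (N I₀ I : Type) [TopologicalSpace N] [CompactSpace N] [T2Space N]
  [Fintype I] (c : I₀ → J.Ch n N) (C : Cov n N N U1 I) (s : I → I₀) (a : I → E n) (r : I → ℝ)
  (χ : I → E n → ℝ), 1 ≤ n → RAtl c → Bx c C s a r → Part C χ → ∀ i₀, FullR c i₀ →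
  ∀ g : Fin (n + 1) → N → ℝ, (∀ k, SmR c (g k)) →
    IntegrableOn (ig (c i₀) g) (c i₀).target ∧ wtX C χ g = ∫ y in (c i₀).target, ig (c i₀) g y

/-- Real version of `FUND`, with the integrability of the densities. -/
def FUNDR : Prop := ∀ (n : ℕ) (N I₀ : Type) [TopologicalSpace N] [CompactSpace N] [T2Space N]
  (c : I₀ → J.Ch n N), 1 ≤ n → RAtl c →
  (∀ i₀, FullR c i₀ → ∀ g : Fin (n + 1) → N → ℝ, (∀ k, SmR c (g k)) →
    IntegrableOn (ig (c i₀) g) (c i₀).target) ∧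
  ∃ z : Chain (n + 1) N, bd _ z = 0 ∧ (∀ i, ∀ p ∈ (c i).source, LocR (c i) p z) ∧
    ∀ i₀, FullR c i₀ → Per (SmR c) (fun g => ∫ y in (c i₀).target, ig (c i₀) g y) z

/-- The densities of `IntC` are integrable. -/
def INTC : Prop := ∀ (m : ℕ) (N : Type) [TopologicalSpace N] [CompactSpace N] [T2Space N]
  (𝒜 : Set (OpenPartialHomeomorph N (Cm m))), 1 ≤ m → CAtl 𝒜 → ∀ e₀ ∈ 𝒜, Full 𝒜 e₀ →
  ∀ g : Fin (m * 2 + 1) → N → ℝ, (∀ k, SmC 𝒜 (g k)) →
    IntegrableOn (fun y => g 0 (e₀.symm y) * (Matrix.of fun k a =>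
      fderiv ℝ (fun y => g (Fin.succ k) (e₀.symm y)) y (bas m a)).det) e₀.target

/-- **KAP**: from real to complex coordinates. -/
def KAP : Prop := FUNDR → FUND ∧ INTC

/-- **PU**: smooth partitions of unity subordinate to balls with centres in `W`. -/
def PU : Prop := ∀ (A : Type) [NormedAddCommGroup A] [NormedSpace ℝ A] [FiniteDimensional ℝ A]
  (W : Set A) (ρ : W → ℝ), (∀ y, 0 < ρ y) → ∃ (U : Set A) (g : W → A → ℝ), W ⊆ U ∧ IsOpen U ∧
    (∀ i, ContDiffOn ℝ ∞ (g i) U) ∧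
    (∀ a ∈ U, ∃ T : Finset W, ∀ᶠ q in nhds a, ∀ i ∉ T, g i q = 0) ∧
    (∀ a ∈ U, ∑ᶠ i, g i a = 1) ∧
    ∀ i, ∀ a ∈ U, a ∈ tsupport (g i) → a ∈ Metric.ball (i : A) (ρ i)

end Vale.Agent.P273SA

end
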