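import Vale.Agent.P273SA.Defs
import Mathlib.Topology.Homotopy.Contractible

/-!
# P273S: singular chains, cones
-/

noncomputable section

namespace Vale.Agent.P273SA

open Set Filter Topology Vale.Agent.P223.H Finsupp

variable {X Y Z : Type} [TopologicalSpace X] [TopologicalSpace Y] [TopologicalSpace Z] {k p : ℕ}

theorem ch_ext {M : Type} [AddCommGroup M] [Module ℝ M] {f g : Chain k X →ₗ[ℝ] M}
    (h : ∀ σ, f (single σ 1) = g (single σ 1)) : f = g :=
  Finsupp.lhom_ext' fun v => LinearMap.ext_ring (h v)

theorem bd_one (σ : Simp (k + 1) X) : bd k (single σ (1 : ℝ)) =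
    ∑ i : Fin (k + 1), (-1 : ℝ) ^ (i : ℕ) • single (σ.comp (face k i)) (1 : ℝ) := by
  simp [bd]

@[simp] theorem push_single (f : C(X, Y)) (σ : Simp k X) (a : ℝ) :
    push f k (single σ a) = single (f.comp σ) a := by
  simp [push]

@[simp] theorem ev_single (c : Simp k X → ℝ) (σ : Simp k X) (a : ℝ) :
    ev c (single σ a) = a * c σ := by
  simp [ev]

theorem bd_push (f : C(X, Y)) (z : Chain (k + 1) X) :
    bd k (push f _ z) = push f _ (bd k z) := by
  have : (bd k).comp (push f (k + 1)) = (push f k).comp (bd k) := ch_ext fun σ => by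
    rw [LinearMap.comp_apply, LinearMap.comp_apply, push_single, bd_one, bd_one, map_sum]
    simp only [map_smul, push_single, ContinuousMap.comp_assoc]
  exact LinearMap.congr_fun this z

theorem push_push (f : C(X, Y)) (g : C(Y, Z)) (z : Chain k X) :
    push g _ (push f _ z) = push (g.comp f) _ z := by
  have : (push g k).comp (push f k) = push (g.comp f) k := ch_ext fun σ => by
    simp [ContinuousMap.comp_assoc]
  exact LinearMap.congr_fun this z

theorem push_id (z : Chain k X) : push (ContinuousMap.id X) _ z = z := by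
  have : push (ContinuousMap.id X) k = LinearMap.id := ch_ext fun σ => by simp
  exact LinearMap.congr_fun this z

theorem ev_push (f : C(X, Y)) (c : Simp k Y → ℝ) (z : Chain k X) :
    ev c (push f _ z) = ev (fun σ => c (f.comp σ)) z := by
  have : (ev c).comp (push f k) = ev fun σ => c (f.comp σ) := ch_ext fun σ => by simp
  exact LinearMap.congr_fun this z

theorem ev_bd (b : Simp k X → ℝ) (z : Chain (k + 1) X) : ev b (bd k z) = ev (cob b) z := by
  have : (ev b).comp (bd k) = ev (cob b) := ch_ext fun σ => by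
    rw [LinearMap.comp_apply, bd_one, map_sum]
    simp [cob]
  exact LinearMap.congr_fun this z

theorem ev_zero_of {c : Simp k X → ℝ} (h : ∀ σ, c σ = 0) (z : Chain k X) : ev c z = 0 := by
  have : ev c = 0 := ch_ext fun σ => by simp [h]
  rw [this, LinearMap.zero_apply]

theorem ev_bd_zero {c : Simp k X → ℝ} (h : ∀ τ, cob c τ = 0) (z : Chain (k + 1) X) :
    ev c (bd k z) = 0 := by
  rw [ev_bd, ev_zero_of h]

theorem cob_comp (f : C(X, Y)) (c : Simp k Y → ℝ) (τ : Simp (k + 1) X) :
    cob (fun σ => c (f.comp σ)) τ = cob c (f.comp τ) := rfl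

theorem vert_face (σ : Simp (k + 1) X) (i : Fin (k + 1)) :
    vert (σ.comp (face k i)) = vert σ ∘ i.succAbove := by
  funext j
  change σ (stdSimplex.map i.succAbove (stdSimplex.vertex j)) = σ (stdSimplex.vertex _)
  rw [stdSimplex.map_vertex]

/-- alternating double sums -/
theorem alt_alt {M : Type} [AddCommGroup M] [Module ℝ M] (u : Fin (p + 2) → Fin (p + 1) → M)
    (h : ∀ i j, u (i.succAbove j) (j.predAbove i) = u i j) :
    ∑ i : Fin (p + 2), (-1 : ℝ) ^ (i : ℕ) • ∑ j : Fin (p + 1), (-1 : ℝ) ^ (j : ℕ) • u i j = 0 := by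
  simp only [Finset.smul_sum, smul_smul, ← pow_add]
  rw [← Finset.sum_product']
  refine Finset.sum_involution (fun a _ => (a.1.succAbove a.2, a.2.predAbove a.1))
    (fun a _ => ?_) (fun a _ _ h => Fin.succAbove_ne _ _ (congrArg Prod.fst h))
    (fun _ _ => Finset.mem_univ _) fun a _ => Prod.ext (Fin.succAbove_succAbove_predAbove _ _)
      (Fin.predAbove_predAbove_succAbove _ _)
  simp only [h, Fin.neg_one_pow_succAbove_add_predAbove, ← add_smul, add_neg_cancel, zero_smul]

theorem face_face (s : Simp (p + 2) X) (i : Fin (p + 2)) (j : Fin (p + 1)) :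
    (s.comp (face _ (i.succAbove j))).comp (face _ (j.predAbove i)) =
      (s.comp (face _ i)).comp (face _ j) :=
  ContinuousMap.ext fun u => congrArg s (by
    change stdSimplex.map _ (stdSimplex.map _ u) = stdSimplex.map _ (stdSimplex.map _ u)
    rw [stdSimplex.map_comp_apply, stdSimplex.map_comp_apply]
    exact congrArg (stdSimplex.map · u)
      (funext (Fin.succAbove_succAbove_succAbove_predAbove _ _)))

theorem bd_bd (w : Chain (p + 2) X) : bd p (bd (p + 1) w) = 0 := by
  have : (bd p).comp (bd (M := X) (p + 1)) = 0 := ch_ext fun σ => by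
    rw [LinearMap.comp_apply, bd_one, map_sum, LinearMap.zero_apply]
    simp only [map_smul, bd_one]
    exact alt_alt _ fun i j => by rw [face_face]
  exact LinearMap.congr_fun this w

/-! ### Cones -/

theorem map_at {q : ℕ} {f : Fin p → Fin q} (hf : Function.Injective f) (u : stdSimplex ℝ (Fin p))
    (a : Fin p) : stdSimplex.map f u (f a) = u a := by
  rw [stdSimplex.map_coe, FunOnFinite.linearMap_apply_apply, Finset.sum_eq_single a]
  · exact fun b hb hba => absurd (hf (Finset.mem_filter.1 hb).2) hba
  · simp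

theorem map_off {q : ℕ} {f : Fin p → Fin q} (u : stdSimplex ℝ (Fin p)) {b : Fin q}
    (h : ∀ a, f a ≠ b) : stdSimplex.map f u b = 0 := by
  rw [stdSimplex.map_coe, FunOnFinite.linearMap_apply_apply]
  exact Finset.sum_eq_zero fun a ha => absurd (Finset.mem_filter.1 ha).2 (h a)

/-- projection from the first vertex -/
def nrm (t : stdSimplex ℝ (Fin (p + 1))) (h : t 0 ≠ 1) : stdSimplex ℝ (Fin p) :=
  ⟨fun i => t i.succ / (1 - t 0), fun i => div_nonneg (stdSimplex.zero_le t _)
    (sub_nonneg.2 (stdSimplex.le_one t 0)), by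
      rw [← Finset.sum_div, div_eq_one_iff_eq (sub_ne_zero.2 h.symm), ← stdSimplex.sum_eq_one t,
        Fin.sum_univ_succ]
      ring⟩

theorem nrm_apply (t : stdSimplex ℝ (Fin (p + 1))) (h : t 0 ≠ 1) (i : Fin p) :
    nrm t h i = t i.succ / (1 - t 0) := rfl

/-- the collapse map -/
def col (q : unitInterval × stdSimplex ℝ (Fin p)) : stdSimplex ℝ (Fin (p + 1)) :=
  ⟨Fin.cons (q.1 : ℝ) fun i => (1 - q.1) * q.2 i, Fin.cases q.1.2.1 fun i =>
    mul_nonneg (unitInterval.one_minus_nonneg q.1) (stdSimplex.zero_le q.2 i), by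
      rw [Fin.sum_cons, ← Finset.mul_sum, stdSimplex.sum_eq_one]
      ring⟩

theorem continuous_col : Continuous (col (p := p)) := by
  refine Continuous.subtype_mk (continuous_pi fun i => ?_) _
  have h0 : Continuous fun q : unitInterval × stdSimplex ℝ (Fin p) => (q.1 : ℝ) :=
    continuous_subtype_val.comp continuous_fst
  exact Fin.cases h0 (fun j => (continuous_const.sub h0).mul
    ((continuous_apply j).comp (continuous_subtype_val.comp continuous_snd))) i

/-- the first coordinate -/
def fst (t : stdSimplex ℝ (Fin (p + 1))) : unitInterval :=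
  ⟨t 0, stdSimplex.zero_le t 0, stdSimplex.le_one t 0⟩

theorem col_surj : Function.Surjective (col (p := p + 1)) := fun t => by
  by_cases h : t 0 = 1
  · refine ⟨(1, stdSimplex.vertex 0), stdSimplex.ext (funext fun i => ?_)⟩
    refine Fin.cases h.symm (fun j => ?_) i
    have h1 := stdSimplex.sum_eq_one t
    rw [Fin.sum_univ_succ, h, add_eq_left] at h1
    rw [(Finset.sum_eq_zero_iff_of_nonneg fun i _ => stdSimplex.zero_le t _).1 h1 j
      (Finset.mem_univ _)]
    change (1 - (1 : ℝ)) * _ = 0
    rw [sub_self, zero_mul]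
  · exact ⟨(fst t, nrm t h), stdSimplex.ext (funext fun i => Fin.cases rfl
      (fun j => mul_div_cancel₀ _ (sub_ne_zero.2 (Ne.symm h))) i)⟩

theorem exists_cone [ContractibleSpace X] : ∃ c : ∀ p, Simp p X → Simp (p + 1) X,
    (∀ p s, (c p s).comp (face p 0) = s) ∧
    ∀ p (s : Simp (p + 1) X) (i : Fin (p + 1)),
      (c (p + 1) s).comp (face _ i.succ) = c p (s.comp (face p i)) := by
  classical
  obtain ⟨x₀, ⟨H⟩⟩ := id_nullhomotopic X
  let c : ∀ p, Simp p X → stdSimplex ℝ (Fin (p + 1)) → X := fun p s t =>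
    if h : t 0 = 1 then x₀ else H (fst t, s (nrm t h))
  have c1 : ∀ p s t, t 0 = 1 → c p s t = x₀ := fun p s t h => dif_pos h
  have c2 : ∀ p s t (h : t 0 ≠ 1), c p s t = H (fst t, s (nrm t h)) := fun p s t h => dif_neg h
  have hc : ∀ p s, Continuous (c p s) := fun p s => by
    cases p with
    | zero =>
      refine continuous_of_const fun x y => congrArg _ (stdSimplex.ext (funext fun i => ?_))
      have h1 := stdSimplex.sum_eq_one x
      have h2 := stdSimplex.sum_eq_one y
      rw [Fin.sum_univ_succ, Fin.sum_univ_zero, add_zero] at h1 h2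
      rw [Subsingleton.elim (α := Fin 1) i 0]
      exact h1.trans h2.symm
    | succ p =>
      rw [(continuous_col.isClosedMap.isQuotientMap continuous_col col_surj).continuous_iff]
      refine (H.continuous.comp (continuous_fst.prodMk (s.continuous.comp continuous_snd))).congr
        fun q => ?_
      change H (q.1, s q.2) = c _ s (col q)
      by_cases h : col q 0 = 1
      · rw [show q.1 = 1 from Subtype.ext h, H.apply_one, c1 _ _ _ h]
        rfl
      · rw [c2 _ _ _ h, show nrm (col q) h = q.2 from stdSimplex.ext (funext fun i =>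
          mul_div_cancel_left₀ _ (sub_ne_zero.2 (Ne.symm h)))]
        rfl
  refine ⟨fun p s => ⟨c p s, hc p s⟩, fun p s => ContinuousMap.ext fun u => ?_,
    fun p s i => ContinuousMap.ext fun u => ?_⟩
  · have h0 : stdSimplex.map (Fin.succAbove 0) u 0 = 0 := map_off u fun a => Fin.succ_ne_zero a
    have h1 : stdSimplex.map (Fin.succAbove 0) u 0 ≠ 1 := by rw [h0]; exact zero_ne_one
    refine (c2 _ _ _ h1).trans ?_
    rw [show fst (stdSimplex.map (Fin.succAbove 0) u) = 0 from Subtype.ext h0, H.apply_zero]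
    refine congrArg s (stdSimplex.ext (funext fun j => ?_))
    rw [nrm_apply, h0, sub_zero, div_one]
    exact map_at (Fin.succ_injective _) u j
  · have h0 : stdSimplex.map i.succ.succAbove u 0 = u 0 := by
      rw [← map_at Fin.succAbove_right_injective u 0, Fin.succ_succAbove_zero]
    change c _ s (stdSimplex.map i.succ.succAbove u) = c _ (s.comp (face p i)) u
    by_cases h : u 0 = 1
    · rw [c1 _ _ _ (h0.trans h), c1 _ _ _ h]
    · rw [c2 _ _ _ fun h' => h (h0.symm.trans h'), c2 _ _ _ h,
        show fst (stdSimplex.map i.succ.succAbove u) = fst u from Subtype.ext h0]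
      refine congrArg (fun y => H (fst u, s y)) (stdSimplex.ext (funext fun j => ?_))
      change nrm _ _ j = stdSimplex.map i.succAbove (nrm u h) j
      rw [nrm_apply, h0]
      rcases Fin.eq_self_or_eq_succAbove i j with rfl | ⟨k, rfl⟩
      · rw [map_off u fun a => Fin.succAbove_ne _ a, map_off _ fun a => Fin.succAbove_ne _ a,
          zero_div]
      · rw [← Fin.succ_succAbove_succ, map_at Fin.succAbove_right_injective,
          map_at Fin.succAbove_right_injective, nrm_apply]

theorem exact_of_contr [ContractibleSpace X] (c : Chain (p + 1) X) (hc : bd p c = 0) :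
    ∃ w : Chain (p + 2) X, bd (p + 1) w = c := by
  obtain ⟨κ, k1, k2⟩ := exists_cone (X := X)
  have h : (bd (p + 1)).comp (lmapDomain ℝ ℝ (κ (p + 1))) =
      LinearMap.id - (lmapDomain ℝ ℝ (κ p)).comp (bd p) := ch_ext fun s => by
    rw [LinearMap.comp_apply, lmapDomain_apply, mapDomain_single, bd_one, Fin.sum_univ_succ, k1,
      LinearMap.sub_apply, LinearMap.comp_apply, bd_one, map_sum, sub_eq_add_neg,
      ← Finset.sum_neg_distrib]
    simp [k2, pow_succ, mapDomain_single]
  refine ⟨lmapDomain ℝ ℝ (κ (p + 1)) c, ?_⟩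
  have := LinearMap.congr_fun h c
  rwa [LinearMap.sub_apply, LinearMap.comp_apply, LinearMap.comp_apply, hc, map_zero,
    sub_zero] at this

/-! ### Chains in a subset -/

/-- chains of simplices with image in `V` -/
def In (V : Set X) (k : ℕ) : Submodule ℝ (Chain k X) :=
  Finsupp.supported ℝ ℝ {σ : Simp k X | ∀ t, σ t ∈ V}

theorem In.mono {V V' : Set X} (h : V ⊆ V') {z : Chain k X} (hz : z ∈ In V k) : z ∈ In V' k :=
  fun _ hσ t => h (hz hσ t)

theorem single_mem_In {V : Set X} {σ : Simp k X} (h : ∀ t, σ t ∈ V) (a : ℝ) :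
    single σ a ∈ In V k := Finsupp.single_mem_supported ℝ a h

theorem mem_In_zero (V : Set X) (z : Chain 0 X) : z ∈ In V 0 := fun σ _ t =>
  absurd (stdSimplex.sum_eq_one t) (by simp)

/-- the inclusion -/
def inc (V : Set X) : C(V, X) := ⟨Subtype.val, continuous_subtype_val⟩

theorem push_inc_inj (V : Set X) : Function.Injective (push (inc V) k) :=
  Finsupp.mapDomain_injective fun _ _ h => ContinuousMap.ext fun t =>
    Subtype.ext (ContinuousMap.congr_fun h t)

theorem push_inc_mem (V : Set X) (z : Chain k V) : push (inc V) k z ∈ In V k := by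
  induction z using Finsupp.induction_linear with
  | zero => simp
  | add a b ha hb => rw [map_add]; exact add_mem ha hb
  | single σ a => rw [push_single]; exact single_mem_In (fun t => (σ t).2) a

theorem exists_push_inc {V : Set X} {z : Chain k X} (hz : z ∈ In V k) :
    ∃ z' : Chain k V, push (inc V) k z' = z := by
  rw [In, Finsupp.supported_eq_span_single] at hz
  induction hz using Submodule.span_induction with
  | mem x hx =>
    obtain ⟨σ, hσ, rfl⟩ := hx
    exact ⟨single ⟨fun t => ⟨σ t, hσ t⟩, σ.continuous.subtype_mk _⟩ 1, by rw [push_single]; rfl⟩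
  | zero => exact ⟨0, map_zero _⟩
  | add x y _ _ hx hy =>
    obtain ⟨a, rfl⟩ := hx
    obtain ⟨b, rfl⟩ := hy
    exact ⟨a + b, map_add _ _ _⟩
  | smul r x _ hx =>
    obtain ⟨a, rfl⟩ := hx
    exact ⟨r • a, map_smul _ _ _⟩

/-- Cycles in a contractible subset are boundaries. -/
theorem fill {V : Set X} (hV : ContractibleSpace V) {z : Chain (p + 1) X} (hz : z ∈ In V _)
    (h0 : bd p z = 0) : ∃ w ∈ In V (p + 2), bd (p + 1) w = z := by
  obtain ⟨z', rfl⟩ := exists_push_inc hz
  rw [bd_push, ← map_zero (push (inc V) p)] at h0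
  obtain ⟨w, rfl⟩ := exact_of_contr z' (push_inc_inj V h0)
  exact ⟨push (inc V) _ w, push_inc_mem V w, bd_push _ _⟩

end Vale.Agent.P273SA

end
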