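import Vale.Agent.P273SA.Int
import Vale.Agent.P273SA.DR
import Vale.Agent.P273SK.Loc
import Vale.Agent.P273SV.Per
import Vale.Agent.P273SR.Kap
import Vale.Agent.P273SL.Pu

/-!
# P273S: FUND and DR
-/

namespace Vale.Agent.P273SA

theorem fund_intc : FUND ∧ INTC := P273SR.kap_row (fundr P273SK.loc P273SV.per int_row)

/-- **FUND** -/
theorem fund : FUND := fund_intc.1

/-- **DR** -/
theorem dr_all : DR := dr P273SL.pu fund_intc.2

end Vale.Agent.P273SA
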