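import Vale.Agent.P273SA.Rows
import Vale.Agent.P223.X.FundE
import Vale.Agent.P223.X.PartX

/-!
# P273S: assembly of the real fundamental cycle
-/

noncomputable section

namespace Vale.Agent.P273SA

open Set MeasureTheory Vale.Agent.P223.H Vale.Agent.P223.X Vale.Agent.P223
open scoped ContDiff

variable {n : ℕ} {N I₀ I : Type} [TopologicalSpace N] {c : I₀ → J.Ch n N} {C : Cov n N N U1 I}
  {s : I → I₀} {a : I → E n} {r : I → ℝ}

theorem Bx.ck (hB : Bx c C s a r) {g : N → ℝ} (hg : SmR c g) : C.Ck 1 g := fun γ i => by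
  have h1 : C.rep g γ i = (fun y => g ((c (s i)).symm y)) ∘ tt (a i) (r i) := funext fun y => by
    rw [Cov.rep, U1.smul_eq, hB.eq]
    rfl
  rw [h1]
  exact (hg (s i)).comp_contDiff ((tt_smooth _ _).of_le (by simp)) (hB.mem i)

theorem adp_mono {κ : Type} [Fintype κ] {D : κ → I × E n} {P : PUX C κ} {ε ε' : ℝ}
    (h : Fund.Adp C D P ε) (hε : ε ≤ ε') : Fund.Adp C D P ε' := fun i =>
  ⟨(h i).1, fun x hx => let ⟨y, h1, h2⟩ := (h i).2 x hx; ⟨y, h1.trans hε, h2⟩⟩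

theorem Per.mono {Sm Sm' : (N → ℝ) → Prop} {J J' : (Fin (n + 1) → N → ℝ) → ℝ}
    {z : H.Chain (n + 1) N} (h : Per Sm J z) (h1 : ∀ g, Sm' g → Sm g)
    (h2 : ∀ g, (∀ k, Sm' (g k)) → J g = J' g) : Per Sm' J' z := by
  intro ι _ g hg hs c b H O o1 o2 o3 o4
  rw [h ι g (fun i => h1 _ (hg i)) hs c b H O o1 o2 o3 o4]
  exact Finset.sum_congr rfl fun l _ => by rw [h2 (g ∘ l) fun k => hg (l k)]

/-- **ASM** -/
theorem fundr (hL : LOC) (hP : PER) (hI : INT) : FUNDR := by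
  intro n N I₀ _ _ _ c hn hc
  choose s hs using hc.cover
  obtain ⟨T, C, r, -, hB⟩ := exists_cov hc s hs ∅
  obtain ⟨χ, hχ⟩ := PartX.main n N N U1 T C
  refine ⟨fun i₀ h0 g hg => (hI n N I₀ T c C _ _ r χ hn hc hB hχ i₀ h0 g hg).1, ?_⟩
  obtain ⟨ε₁, h1, hl⟩ := hL n N I₀ T c C _ _ r χ hn hc hB hχ
  obtain ⟨ε₂, h2, hp⟩ := hP n N T C χ hn hB.π hχ
  obtain ⟨ε₃, h3, hs⟩ := Fund.small C n 1 one_pos
  obtain ⟨κ, _, P, D, hD, -⟩ := FundC.main n N N U1 T C χ hn hχ (min ε₁ (min ε₂ ε₃))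
    (lt_min h1 (lt_min h2 h3))
  refine ⟨Fund.cy C χ D P, Fund.bd_cy C Form.mainA FundE.wts hn hχ
    (adp_mono hD ((min_le_right _ _).trans (min_le_right _ _))) fun l hl => (hs l hl).1,
    hl κ D P (adp_mono hD (min_le_left _ _)), fun i₀ h0 =>
    (hp κ D P (adp_mono hD ((min_le_right _ _).trans (min_le_left _ _)))).mono
      (fun g hg => hB.ck hg) fun g hg => (hI n N I₀ T c C _ _ r χ hn hc hB hχ i₀ h0 g hg).2⟩

end Vale.Agent.P273SA

end
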