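import Vale.Agent.P223.X.SpecY
import Mathlib.Analysis.Calculus.DifferentialForm.Basic
import Mathlib.MeasureTheory.Measure.Lebesgue.Complex

/-!
# P273S: singular cocycles, periods of fundamental cycles (definitions)
-/

noncomputable section

namespace Vale.Agent.P273SA

open Set Filter Topology MeasureTheory Vale.Agent.P223.H
open scoped ContDiff

variable {X Y : Type} [TopologicalSpace X] [TopologicalSpace Y] {k : ℕ}

/-- The image of a chain. -/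
def push (f : C(X, Y)) (k : ℕ) : Chain k X →ₗ[ℝ] Chain k Y :=
  Finsupp.lmapDomain ℝ ℝ fun σ => f.comp σ

/-- The value of a cochain on a chain. -/
def ev (c : Simp k X → ℝ) : Chain k X →ₗ[ℝ] ℝ := Finsupp.linearCombination ℝ c

/-- The coboundary of a singular cochain. -/
def cob (b : Simp k X → ℝ) (σ : Simp (k + 1) X) : ℝ :=
  ∑ i : Fin (k + 1), (-1 : ℝ) ^ (i : ℕ) * b (σ.comp (face k i))

/-- The coboundary of a function of tuples. -/
def cobT {T : Type} (H : (Fin k → T) → ℝ) (l : Fin (k + 1) → T) : ℝ :=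
  ∑ i : Fin (k + 1), (-1 : ℝ) ^ (i : ℕ) * H (l ∘ i.succAbove)

/-- The vertices of a simplex. -/
def vert (σ : Simp k X) (i : Fin k) : X := σ (stdSimplex.vertex i)

/-- Every point has a basis of contractible neighbourhoods. -/
def SLC (X : Type) [TopologicalSpace X] : Prop :=
  ∀ x : X, ∀ U ∈ 𝓝 x, ∃ V ∈ 𝓝 x, V ⊆ U ∧ ContractibleSpace V

/-- The cycle `z` has the periods given by the functional `I` (in the applications `I g` is the
integral of `g₀ dg₁ ∧ … ∧ dgₙ`) on the class `Sm` of functions. -/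
def Per {N : Type} [TopologicalSpace N] {n : ℕ} (Sm : (N → ℝ) → Prop)
    (I : (Fin (n + 1) → N → ℝ) → ℝ) (z : Chain (n + 1) N) : Prop :=
  ∀ (ι : Type) [Fintype ι] (g : ι → N → ℝ), (∀ i, Sm (g i)) → (∀ x, ∑ i, g i x = 1) →
    ∀ (c : Simp (n + 1) N → ℝ) (b : Simp n N → ℝ) (H : (Fin (n + 1) → N ⊕ ι) → ℝ)
      (O : N → Set N), (∀ x, O x ∈ 𝓝 x) → (∀ τ, cob c τ = 0) →
      (∀ (σ : Simp (n + 1) N) x, (∀ t, σ t ∈ O x) → c σ = H (Sum.inl ∘ vert σ) + cob b σ) →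
      (∀ x (l : Fin (n + 2) → N ⊕ ι), (∀ k y, l k = Sum.inl y → y ∈ O x) →
        (∀ k i, l k = Sum.inr i → (tsupport (g i) ∩ O x).Nonempty) → cobT H l = 0) →
      ev c z = ∑ l : Fin (n + 1) → ι, H (Sum.inr ∘ l) * I (g ∘ l)

/-- `ℂ^m`. -/
abbrev Cm (m : ℕ) := Fin m → ℂ

/-- The real coordinates of `ℂ^m`, in the order `Re, Im, Re, Im, …`. -/
def kap (m : ℕ) (y : E (m * 2)) : Cm m := fun j =>
  (y (finProdFinEquiv (j, 0)) : ℂ) + (y (finProdFinEquiv (j, 1)) : ℂ) * Complex.I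

section
variable {m : ℕ} {N : Type} [TopologicalSpace N]

/-- A holomorphic atlas. -/
structure CAtl (𝒜 : Set (OpenPartialHomeomorph N (Cm m))) : Prop where
  cover : ∀ x, ∃ e ∈ 𝒜, x ∈ e.source
  an : ∀ e ∈ 𝒜, ∀ e' ∈ 𝒜, ∀ x ∈ e.source, x ∈ e'.source →
    AnalyticAt ℂ (fun y => e' (e.symm y)) (e x)

/-- The complement of the domain of `e₀` is a null set. -/
def Full (𝒜 : Set (OpenPartialHomeomorph N (Cm m))) (e₀ : OpenPartialHomeomorph N (Cm m)) :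
    Prop := ∀ e ∈ 𝒜, volume (e '' (e.source \ e₀.source)) = 0

/-- Smooth maps to a vector space. -/
def SmC (𝒜 : Set (OpenPartialHomeomorph N (Cm m))) {A : Type} [NormedAddCommGroup A]
    [NormedSpace ℝ A] (f : N → A) : Prop :=
  ∀ e ∈ 𝒜, ContDiffOn ℝ ∞ (fun y => f (e.symm y)) e.target

/-- The real basis `e_0, i e_0, e_1, …` of `ℂ^m`. -/
def bas (m : ℕ) (a : Fin (m * 2)) : Cm m :=
  Pi.single a.divNat (if a.modNat = 0 then 1 else Complex.I)

/-- The integral of `g₀ dg₁ ∧ … ∧ dgₙ` over the chart `e₀`. -/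
def IntC (e₀ : OpenPartialHomeomorph N (Cm m)) (g : Fin (m * 2 + 1) → N → ℝ) : ℝ :=
  ∫ y in e₀.target, g 0 (e₀.symm y) *
    (Matrix.of fun k a => fderiv ℝ (fun y => g (Fin.succ k) (e₀.symm y)) y (bas m a)).det

/-- Near the point `p` the chain `z` is a positively oriented affine simplex of the chart `e`. -/
def Loc (e : OpenPartialHomeomorph N (Cm m)) (p : N) (z : Chain (m * 2 + 1) N) : Prop :=
  ∃ (w : E (m * 2)) (A : Matrix (Fin (m * 2)) (Fin (m * 2)) ℝ) (s : Simp (m * 2 + 1) N)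
    (b : Chain (m * 2 + 2) N) (c : Chain (m * 2 + 1) N), 0 < A.det ∧
    (∀ t, s t ∈ e.source ∧ e (s t) = kap m fun j => w j + ∑ i, t i.succ * A i j) ∧
    (∃ t, (∀ i, 0 < t i) ∧ s t = p) ∧ (∀ σ ∈ c.support, ∀ t, σ t ≠ p) ∧
    z = Finsupp.single s 1 + bd _ b + c

end

/-- **FUND**: fundamental cycles of compact complex manifolds, with their periods. -/
def FUND : Prop := ∀ (m : ℕ) (N : Type) [TopologicalSpace N] [CompactSpace N] [T2Space N]
  (𝒜 : Set (OpenPartialHomeomorph N (Cm m))), 1 ≤ m → CAtl 𝒜 → (∃ e₀ ∈ 𝒜, Full 𝒜 e₀) →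
  ∃ z : Chain (m * 2 + 1) N, bd _ z = 0 ∧ (∀ e ∈ 𝒜, ∀ p ∈ e.source, Loc e p z) ∧
    ∀ e₀ ∈ 𝒜, Full 𝒜 e₀ → Per (SmC 𝒜) (IntC e₀) z

/-- **DR**: a singular cocycle on a locally contractible subset `W` of a vector space is given by a
smooth closed form on a neighbourhood of `W`. -/
def DR : Prop := ∀ (m : ℕ) (A : Type) [NormedAddCommGroup A] [NormedSpace ℝ A]
  [FiniteDimensional ℝ A] (W : Set A), SLC W → ∀ c : Simp (m * 2 + 1) W → ℝ,
  (∀ τ, cob c τ = 0) → ∃ (U : Set A) (om : A → A [⋀^Fin (m * 2)]→L[ℝ] ℝ), IsOpen U ∧ W ⊆ U ∧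
    ContDiffOn ℝ ∞ om U ∧ (∀ a ∈ U, extDeriv om a = 0) ∧
    ∀ (N : Type) [TopologicalSpace N] [CompactSpace N] [T2Space N]
      (𝒜 : Set (OpenPartialHomeomorph N (Cm m))) (e₀ : OpenPartialHomeomorph N (Cm m))
      (z : Chain (m * 2 + 1) N) (f : C(N, W)), 1 ≤ m → CAtl 𝒜 → e₀ ∈ 𝒜 → Full 𝒜 e₀ →
      Per (SmC 𝒜) (IntC e₀) z → SmC 𝒜 (fun x => (f x : A)) →
      IntegrableOn (fun y => om (f (e₀.symm y)) fun a =>
        fderiv ℝ (fun y => (f (e₀.symm y) : A)) y (bas m a)) e₀.target ∧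
      ev c (push f _ z) = ∫ y in e₀.target, om (f (e₀.symm y)) fun a =>
        fderiv ℝ (fun y => (f (e₀.symm y) : A)) y (bas m a)

/-- **UNIQ**: two cycles with the same periods are homologous. -/
def UNIQ : Prop := ∀ (m : ℕ) (N : Type) [TopologicalSpace N] [CompactSpace N] [T2Space N]
  (𝒜 : Set (OpenPartialHomeomorph N (Cm m))) (I : (Fin (m * 2 + 1) → N → ℝ) → ℝ)
  (z z' : Chain (m * 2 + 1) N), 1 ≤ m → CAtl 𝒜 → Per (SmC 𝒜) I z → Per (SmC 𝒜) I z' →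
  ∃ b, z - z' = bd _ b

end Vale.Agent.P273SA

end
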