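import Vale.Agent.P273SA.Asm
import Mathlib.MeasureTheory.Function.Jacobian

/-!
# P273S: the weights are integrals over a chart of full measure
-/

noncomputable section

namespace Vale.Agent.P273SA

open Set Filter Topology Function MeasureTheory Vale.Agent.P223.H Vale.Agent.P223.X Vale.Agent.P223
open scoped ContDiff

variable {n : ℕ} {N I₀ I : Type} [TopologicalSpace N] {c : I₀ → J.Ch n N} {C : Cov n N N U1 I}
  {s : I → I₀} {a : I → E n} {r : I → ℝ}

theorem Bx.null (hB : Bx c C s a r) {i₀ : I₀} (h0 : FullR c i₀) (i : I) :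
    volume (C.ψ i ⁻¹' (c i₀).source)ᶜ = 0 := by
  have hθ := emb_of_det (tt_smooth (a i) (r i)) (tt_inj _ (hB.pos i)) (tt_det _ (hB.pos i))
  have h1 := addHaar_image_eq_zero_of_differentiableOn_of_addHaar_eq_zero volume
    (f := invFun (tt (a i) (r i))) (s := c (s i) '' ((c (s i)).source \ (c i₀).source) ∩
      range (tt (a i) (r i)))
    (fun _ ⟨_, y, hy⟩ => hy ▸ ((hθ.2 y).1.differentiableAt (by simp)).differentiableWithinAt)
    (measure_mono_null inter_subset_left (h0 _))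
  refine measure_mono_null (fun y hy => ?_) h1
  refine ⟨tt (a i) (r i) y, ⟨⟨C.ψ i y, ⟨?_, hy⟩, ?_⟩, y, rfl⟩,
    leftInverse_invFun (tt_inj _ (hB.pos i)) y⟩
  · rw [hB.eq]
    exact (c (s i)).map_target (hB.mem i y)
  · rw [hB.eq, (c (s i)).right_inv (hB.mem i y)]

theorem Bx.tau (hc : RAtl c) (hB : Bx c C s a r) (i₀ : I₀) (i : I) {y : E n}
    (hy : C.ψ i y ∈ (c i₀).source) : DifferentiableAt ℝ (fun y => c i₀ (C.ψ i y)) y ∧
      0 < (fderiv ℝ (fun y => c i₀ (C.ψ i y)) y).det := by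
  have h1 : (fun y => c i₀ (C.ψ i y)) = fun y => id (J.cm (c (s i)) (c i₀) (tt (a i) (r i) y)) :=
    funext fun y => by rw [hB.eq]; rfl
  have h2 := hc.cmp (s i) i₀ (C.ψ i y) (hB.eq i y ▸ (c (s i)).map_target (hB.mem i y)) hy
  rw [hB.eq, (c (s i)).right_inv (hB.mem i y)] at h2
  have h3 := det_comp3 (k := id) (tt_smooth _ _).contDiffAt h2.1 contDiffAt_id
    (tt_det _ (hB.pos i) y) h2.2 (by
      rw [fderiv_id, show (ContinuousLinearMap.id ℝ (E n)).det = 1 from LinearMap.det_id]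
      exact one_pos)
  rw [h1]
  exact ⟨h3.1.differentiableAt (by simp), h3.2⟩

theorem Bx.term [Fintype I] (hc : RAtl c) (hB : Bx c C s a r) {χ : I → E n → ℝ} (hχ : Part C χ)
    {i₀ : I₀} (h0 : FullR c i₀) {g : Fin (n + 1) → N → ℝ} (hg : ∀ k, SmR c (g k)) (i : I) :
    IntegrableOn (fun y => C.ex i (χ i) ((c i₀).symm y) * ig (c i₀) g y) (c i₀).target ∧
    ∫ y, χ i y * (C.rep (g 0) 1 i y * jdet (fun k => C.rep (g k.succ) 1 i) y) =
      ∫ y in (c i₀).target, C.ex i (χ i) ((c i₀).symm y) * ig (c i₀) g y := by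
  have hD : IsOpen (C.ψ i ⁻¹' (c i₀).source) := (c i₀).open_source.preimage (C.emb i).continuous
  have hd : ∀ y ∈ C.ψ i ⁻¹' (c i₀).source, HasFDerivWithinAt (fun y => c i₀ (C.ψ i y))
      (fderiv ℝ (fun y => c i₀ (C.ψ i y)) y) (C.ψ i ⁻¹' (c i₀).source) y := fun y hy =>
    (hB.tau hc i₀ i hy).1.hasFDerivAt.hasFDerivWithinAt
  have hi : InjOn (fun y => c i₀ (C.ψ i y)) (C.ψ i ⁻¹' (c i₀).source) := fun y hy z hz h =>
    (C.emb i).injective ((c i₀).injOn hy hz h)
  have he : EqOn (fun y => χ i y * (C.rep (g 0) 1 i y * jdet (fun k => C.rep (g k.succ) 1 i) y))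
      (fun y => |(fderiv ℝ (fun y => c i₀ (C.ψ i y)) y).det| •
        (C.ex i (χ i) ((c i₀).symm (c i₀ (C.ψ i y))) * ig (c i₀) g (c i₀ (C.ψ i y))))
      (C.ψ i ⁻¹' (c i₀).source) := by
    intro y hy
    have h1 := hB.tau hc i₀ i hy
    have h2 : jdet (fun k => C.rep (g k.succ) 1 i) y =
        jdet (fun k z => g k.succ ((c i₀).symm (c i₀ (C.ψ i z)))) y :=
      DensX.jdet_congr fun k => by
        filter_upwards [hD.mem_nhds hy] with z hz
        rw [(c i₀).left_inv hz]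
        rfl
    have h3 := DensX.jdet_comp (fun k y => g (Fin.succ k) ((c i₀).symm y)) _ y (fun k =>
      ((hg k.succ i₀).contDiffAt ((c i₀).open_target.mem_nhds
        ((c i₀).map_source hy))).differentiableAt one_ne_zero) h1.1
    beta_reduce
    rw [h2, h3, abs_of_pos h1.2, ig, (c i₀).left_inv hy, Cov.ex, if_pos (mem_range_self y),
      Fund.coψ, smul_eq_mul, Cov.rep, one_smul]
    ring
  have hw : Integrable fun y =>
      χ i y * (C.rep (g 0) 1 i y * jdet (fun k => C.rep (g k.succ) 1 i) y) :=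
    DensX.integrable_nice hχ (w := fun γ i y => C.rep (g 0) γ i y *
      jdet (fun k => C.rep (g k.succ) γ i) y) (fun γ i => (hB.ck (hg 0) γ i).continuous.mul
        (StokesX.continuous_jdet (fun k => hB.ck (hg k.succ)) γ i)) 1 i
  have hs : (fun y => c i₀ (C.ψ i y)) '' (C.ψ i ⁻¹' (c i₀).source) ⊆ (c i₀).target :=
    fun _ ⟨_, hy, h⟩ => h ▸ (c i₀).map_source hy
  have hz : ∀ y ∈ (c i₀).target \ (fun y => c i₀ (C.ψ i y)) '' (C.ψ i ⁻¹' (c i₀).source),
      C.ex i (χ i) ((c i₀).symm y) * ig (c i₀) g y = 0 := fun y hy => by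
    rw [Cov.ex, if_neg, zero_mul]
    rintro ⟨z, hz⟩
    exact hy.2 ⟨z, mem_preimage.2 (hz ▸ (c i₀).map_target hy.1),
      (congrArg (c i₀) hz).trans ((c i₀).right_inv hy.1)⟩
  have hm := (c i₀).open_target.measurableSet
  refine ⟨IntegrableOn.of_forall_sdiff_eq_zero
    ((integrableOn_image_iff_integrableOn_abs_det_fderiv_smul volume hD.measurableSet hd hi _).2
      (hw.integrableOn.congr_fun he hD.measurableSet)) hm hz, ?_⟩
  rw [setIntegral_eq_of_subset_of_forall_sdiff_eq_zero hm hs hz,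
    integral_image_eq_integral_abs_det_fderiv_smul volume hD.measurableSet hd hi,
    ← setIntegral_congr_fun hD.measurableSet he,
    Measure.restrict_eq_self_of_ae_mem (s := C.ψ i ⁻¹' (c i₀).source)
      (mem_ae_iff.2 (hB.null h0 i))]

/-- **INT** -/
theorem int_row : INT := by
  intro n N I₀ I _ _ _ _ c C s a r χ _ hc hB hχ i₀ h0 g hg
  have h1 : ∀ y, ∑ i, C.ex i (χ i) ((c i₀).symm y) * ig (c i₀) g y = ig (c i₀) g y := fun y => by
    have h2 := hχ.sum ((c i₀).symm y)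
    simp only [finsum_unique, U1.smul_eq] at h2
    rw [← Finset.sum_mul, h2, one_mul]
  have h3 := fun i => hB.term hc hχ h0 hg i
  refine ⟨funext h1 ▸ integrable_finsetSum _ fun i _ => (h3 i).1, ?_⟩
  rw [← funext h1, integral_finsetSum _ fun i _ => (h3 i).1, wtX]
  refine Finset.sum_congr rfl fun i _ => ?_
  rw [finsum_unique]
  exact (h3 i).2

end Vale.Agent.P273SA

end
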