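import Vale.Agent.P273SA.Defs
import Vale.Agent.P223.X.SpecU
import Mathlib.Analysis.Calculus.InverseFunctionTheorem.ContDiff
import Mathlib.Analysis.SpecialFunctions.SmoothTransition

/-!
# P273S: bounded parametrisations that are affine near the origin; coverings from atlases
-/

noncomputable section

namespace Vale.Agent.P273SA

open Set Filter Topology Function Metric Vale.Agent.P223.H Vale.Agent.P223.X Vale.Agent.P223
open scoped ContDiff

variable {n : ℕ}

theorem emb_of_det {θ : E n → E n} (h : ContDiff ℝ ∞ θ) (hi : Injective θ)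
    (hd : ∀ y, 0 < (fderiv ℝ θ y).det) : IsOpenEmbedding θ ∧
    ∀ y, ContDiffAt ℝ ∞ (invFun θ) (θ y) ∧ 0 < (fderiv ℝ (invFun θ) (θ y)).det := by
  let L : E n → E n ≃L[ℝ] E n := fun y =>
    (fderiv ℝ θ y).toContinuousLinearEquivOfDetNeZero (hd y).ne'
  have h1 : ∀ y, HasStrictFDerivAt θ (L y : E n →L[ℝ] E n) y := fun y =>
    h.contDiffAt.hasStrictFDerivAt (by simp)
  refine ⟨IsOpenEmbedding.of_continuous_injective_isOpenMap h.continuous hi
    (isOpenMap_of_hasStrictFDerivAt_equiv h1), fun y => ?_⟩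
  have h2 : ContDiffAt ℝ ∞ (invFun θ) (θ y) := by
    refine (h.contDiffAt.to_localInverse (h1 y).hasFDerivAt (by simp)).congr_of_eventuallyEq ?_
    filter_upwards [(h1 y).eventually_right_inverse] with z hz
    exact (congrArg (invFun θ) hz.symm).trans (leftInverse_invFun hi _)
  refine ⟨h2, ?_⟩
  have h3 := (h2.differentiableAt (by simp)).hasFDerivAt.comp y
    (h.differentiable (by simp) y).hasFDerivAt
  rw [show invFun θ ∘ θ = id from funext (leftInverse_invFun hi)] at h3
  have h4 := congrArg ContinuousLinearMap.det (h3.unique (hasFDerivAt_id y))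
  have h5 : ((fderiv ℝ (invFun θ) (θ y)).comp (fderiv ℝ θ y)).det =
      (fderiv ℝ (invFun θ) (θ y)).det * (fderiv ℝ θ y).det := LinearMap.det_comp _ _
  have h6 : (ContinuousLinearMap.id ℝ (E n)).det = 1 := LinearMap.det_id
  rw [h5, h6] at h4
  exact pos_of_mul_pos_left (h4 ▸ one_pos) (hd y).le

/-- `t exp (-1/t)` -/
def hh (t : ℝ) : ℝ := t * expNegInvGlue t

theorem hh_smooth : ContDiff ℝ ∞ hh := contDiff_id.mul expNegInvGlue.contDiff

theorem hh_zero {t : ℝ} (h : t ≤ 0) : hh t = 0 := by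
  rw [hh, expNegInvGlue.zero_of_nonpos h, mul_zero]

theorem hh_pos {t : ℝ} (h : 0 < t) : hh t = t * Real.exp (-t⁻¹) := by
  rw [hh, expNegInvGlue, if_neg h.not_ge]

theorem deriv_hh_zero {t : ℝ} (h : t ≤ 0) : deriv hh t = 0 := by
  rcases h.eq_or_lt with rfl | h
  · have h1 := (hasDerivAt_id (0 : ℝ)).mul
      ((expNegInvGlue.contDiff (n := 1)).differentiable (by simp) 0).hasDerivAt
    refine h1.deriv.trans ?_
    simp
  · have h1 : hh =ᶠ[𝓝 t] fun _ => 0 := by
      filter_upwards [Iio_mem_nhds h] with s hs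
      exact hh_zero (le_of_lt hs)
    rw [h1.deriv_eq, deriv_const]

theorem deriv_hh_lt (t : ℝ) : deriv hh t < 1 := by
  rcases le_or_gt t 0 with h | h
  · rw [deriv_hh_zero h]
    exact one_pos
  · have h1 : hh =ᶠ[𝓝 t] fun s => s * Real.exp (-s⁻¹) := by
      filter_upwards [Ioi_mem_nhds h] with s hs
      exact hh_pos hs
    have h2 := (hasDerivAt_id t).mul (hasDerivAt_inv h.ne').neg.exp
    have h3 : deriv (fun s => s * Real.exp (-s⁻¹)) t = _ := h2.deriv
    rw [h1.deriv_eq, h3]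
    have h4 : t⁻¹ + 1 < Real.exp t⁻¹ := Real.add_one_lt_exp (inv_pos.2 h).ne'
    have h5 : Real.exp (-t⁻¹) * Real.exp t⁻¹ = 1 := by rw [← Real.exp_add]; simp
    have h6 := mul_lt_mul_of_pos_left h4 (Real.exp_pos (-t⁻¹))
    have h7 : t * (Real.exp (-t⁻¹) * (t ^ 2)⁻¹) = Real.exp (-t⁻¹) * t⁻¹ := by field_simp
    simp only [Pi.neg_apply, id, neg_neg, one_mul]
    nlinarith

theorem hh_bd {t : ℝ} (h : 0 < t) : 0 ≤ t - hh t ∧ t - hh t ≤ 1 := by
  rw [hh_pos h]
  have h1 := Real.add_one_le_exp (-t⁻¹)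
  have h2 : Real.exp (-t⁻¹) ≤ 1 := Real.exp_le_one_iff.2 (neg_nonpos.2 (inv_pos.2 h).le)
  have h3 : t * t⁻¹ = 1 := mul_inv_cancel₀ h.ne'
  constructor <;> nlinarith

/-- the identity on `[-3, 3]`, bounded by `4` -/
def qq (s : ℝ) : ℝ := s - hh (s - 3) + hh (-s - 3)

theorem qq_smooth : ContDiff ℝ ∞ qq :=
  (contDiff_id.sub (hh_smooth.comp (contDiff_id.sub contDiff_const))).add
    (hh_smooth.comp (contDiff_id.neg.sub contDiff_const))

theorem qq_eq {s : ℝ} (h : |s| ≤ 3) : qq s = s := by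
  rw [abs_le] at h
  rw [qq, hh_zero (by linarith), hh_zero (by linarith)]
  ring

theorem qq_bd (s : ℝ) : |qq s| ≤ 4 := by
  rcases le_or_gt |s| 3 with h | h
  · rw [qq_eq h]
    linarith
  · rw [abs_le, qq]
    rcases lt_abs.1 h with h | h
    · have := hh_bd (t := s - 3) (by linarith)
      rw [hh_zero (t := -s - 3) (by linarith)]
      constructor <;> linarith
    · have := hh_bd (t := -s - 3) (by linarith)
      rw [hh_zero (t := s - 3) (by linarith)]
      constructor <;> linarith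

theorem qq_deriv (s : ℝ) : ∃ d, 0 < d ∧ HasDerivAt qq d s := by
  have hd : ∀ t, HasDerivAt hh (deriv hh t) t := fun t =>
    (hh_smooth.differentiable (by simp) t).hasDerivAt
  have h1 := ((hasDerivAt_id s).sub ((hd (s - 3)).comp s ((hasDerivAt_id s).sub_const 3))).add
    ((hd (-s - 3)).comp s ((hasDerivAt_id s).neg.sub_const 3))
  refine ⟨_, ?_, h1⟩
  rcases le_or_gt s 0 with h | h
  · rw [deriv_hh_zero (t := s - 3) (by linarith)]
    linarith [deriv_hh_lt (-s - 3)]
  · rw [deriv_hh_zero (t := -s - 3) (by linarith)]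
    linarith [deriv_hh_lt (s - 3)]

theorem qq_inj : Injective qq := (strictMono_of_deriv_pos fun s => by
  obtain ⟨d, h1, h2⟩ := qq_deriv s
  rwa [h2.deriv]).injective

/-- the parametrisation -/
def tt (a : E n) (r : ℝ) (y : E n) : E n := fun k => a k + r * qq (y k)

theorem tt_smooth (a : E n) (r : ℝ) : ContDiff ℝ ∞ (tt a r) := contDiff_pi.2 fun k =>
  contDiff_const.add (contDiff_const.mul (qq_smooth.comp (contDiff_apply ℝ ℝ k)))

theorem tt_inj (a : E n) {r : ℝ} (hr : 0 < r) : Injective (tt a r) := fun _ _ h => funext fun k =>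
  qq_inj (mul_left_cancel₀ hr.ne' (add_left_cancel (congrFun h k)))

theorem tt_det (a : E n) {r : ℝ} (hr : 0 < r) (y : E n) : 0 < (fderiv ℝ (tt a r) y).det := by
  choose d hd1 hd2 using fun k => qq_deriv (y k)
  have h1 : HasFDerivAt (tt a r) (LinearMap.toContinuousLinearMap
      (Matrix.toLin' (Matrix.diagonal fun k => r * d k))) y := by
    refine hasFDerivAt_pi'.2 fun k => ?_
    have h2 := (((hd2 k).const_mul r).const_add (a k)).comp_hasFDerivAt y
      (hasFDerivAt_apply (𝕜 := ℝ) k y)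
    refine h2.congr_fderiv (ContinuousLinearMap.ext fun v => ?_)
    simp [Matrix.mulVec_diagonal]
  rw [h1.fderiv]
  change 0 < LinearMap.det (Matrix.toLin' (Matrix.diagonal fun k => r * d k))
  rw [LinearMap.det_toLin', Matrix.det_diagonal]
  exact Finset.prod_pos fun k _ => mul_pos hr (hd1 k)

theorem tt_mem (a : E n) {r : ℝ} (hr : 0 < r) (y : E n) : tt a r y ∈ closedBall a (4 * r) := by
  rw [mem_closedBall, dist_pi_le_iff (by positivity)]
  intro k
  rw [tt, Real.dist_eq, add_sub_cancel_left, abs_mul, abs_of_pos hr]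
  nlinarith [qq_bd (y k)]

theorem tt_eq (a : E n) (r : ℝ) {y : E n} (h : ‖y‖ ≤ 3) : tt a r y = a + r • y := funext fun k => by
  rw [tt, qq_eq ((norm_le_pi_norm y k).trans h)]
  rfl

/-- The trivial group. -/
def U1 : Type := PUnit

instance : Group U1 := inferInstanceAs (Group PUnit)

instance : Unique U1 := inferInstanceAs (Unique PUnit)

instance (X : Type) : MulAction U1 X where
  smul _ x := x
  one_smul _ := rfl
  mul_smul _ _ _ := rfl

theorem U1.smul_eq {X : Type} (γ : U1) (x : X) : γ • x = x := rfl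

theorem cov_id (X : Type) [TopologicalSpace X] : IsCoveringMap (id : X → X) :=
  IsCoveringMap.mk (id : X → X) (fun _ => Unit) (fun _ =>
    { toOpenPartialHomeomorph := (Homeomorph.prodUnique X Unit).symm.toOpenPartialHomeomorph
      baseSet := univ
      open_baseSet := isOpen_univ
      source_eq := rfl
      target_eq := univ_prod_univ.symm
      proj_toFun := fun _ _ => rfl }) fun _ => mem_univ _

variable {N : Type} [TopologicalSpace N] {I₀ I : Type}

/-- An oriented atlas. -/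
structure RAtl (c : I₀ → J.Ch n N) : Prop where
  cover : ∀ x, ∃ i, x ∈ (c i).source
  cmp : ∀ i j, J.Comp (c i) (c j)

/-- The charts of the covering `C` come from the atlas `c`. -/
structure Bx (c : I₀ → J.Ch n N) (C : Cov n N N U1 I) (s : I → I₀) (a : I → E n) (r : I → ℝ) :
    Prop where
  π : C.π = ContinuousMap.id N
  pos : ∀ i, 0 < r i
  mem : ∀ i y, tt (a i) (r i) y ∈ (c (s i)).target
  eq : ∀ i y, C.ψ i y = (c (s i)).symm (tt (a i) (r i) y)

theorem emb_symm (e : J.Ch n N) {θ : E n → E n} (h : IsOpenEmbedding θ) (hm : ∀ y, θ y ∈ e.target) :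
    IsOpenEmbedding fun y => e.symm (θ y) := by
  have h1 : IsOpenEmbedding (codRestrict θ e.symm.source hm) :=
    IsOpenEmbedding.of_comp _ e.symm.open_source.isOpenEmbedding_subtypeVal h
  exact e.symm.isOpenEmbedding_restrict.comp h1

theorem det_comp3 {f g k : E n → E n} {y : E n} (hf : ContDiffAt ℝ ∞ f y)
    (hg : ContDiffAt ℝ ∞ g (f y)) (hk : ContDiffAt ℝ ∞ k (g (f y))) (df : 0 < (fderiv ℝ f y).det)
    (dg : 0 < (fderiv ℝ g (f y)).det) (dk : 0 < (fderiv ℝ k (g (f y))).det) :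
    ContDiffAt ℝ ∞ (fun y => k (g (f y))) y ∧ 0 < (fderiv ℝ (fun y => k (g (f y))) y).det := by
  refine ⟨hk.comp y (hg.comp y hf), ?_⟩
  have h1 : HasFDerivAt (fun y => k (g (f y))) _ y :=
    (hk.differentiableAt (by simp)).hasFDerivAt.comp y
      ((hg.differentiableAt (by simp)).hasFDerivAt.comp y
        (hf.differentiableAt (by simp)).hasFDerivAt)
  rw [h1.fderiv]
  have h2 := mul_pos dk (mul_pos dg df)
  simp only [ContinuousLinearMap.det] at h2 ⊢
  rw [← LinearMap.det_comp, ← LinearMap.det_comp] at h2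
  exact h2

theorem exists_cov [CompactSpace N] {c : I₀ → J.Ch n N} (hc : RAtl c) (s : N → I₀)
    (hs : ∀ x, x ∈ (c (s x)).source) (F : Finset N) :
    ∃ (T : Finset N) (C : Cov n N N U1 T) (r : T → ℝ), F ⊆ T ∧
      Bx c C (fun i => s i) (fun i => c (s i) i) r := by
  classical
  have h1 : ∀ x, ∃ r, 0 < r ∧ closedBall (c (s x) x) (4 * r) ⊆ (c (s x)).target := fun x => by
    obtain ⟨ε, h1, h2⟩ := Metric.nhds_basis_closedBall.mem_iff.1
      ((c (s x)).open_target.mem_nhds ((c (s x)).map_source (hs x)))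
    exact ⟨ε / 4, by positivity, by rwa [mul_div_cancel₀ _ four_ne_zero]⟩
  choose r hr hr' using h1
  have hm : ∀ x y, tt (c (s x) x) (r x) y ∈ (c (s x)).target := fun x y => hr' x (tt_mem _ (hr x) y)
  have hθ := fun x => emb_of_det (tt_smooth (c (s x) x) (r x)) (tt_inj _ (hr x)) (tt_det _ (hr x))
  let ψ : N → E n → N := fun x y => (c (s x)).symm (tt (c (s x) x) (r x) y)
  have he : ∀ x, IsOpenEmbedding (ψ x) := fun x => emb_symm _ (hθ x).1 (hm x)
  obtain ⟨T, hT⟩ := isCompact_univ.elim_finite_subcover (fun x => ψ x '' ball 0 1)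
    (fun x => (he x).isOpenMap _ isOpen_ball) fun x _ => mem_iUnion.2 ⟨x, 0, mem_ball_self one_pos,
      by simp only [ψ]; rw [tt_eq _ _ (by simp), smul_zero, add_zero, (c (s x)).left_inv (hs x)]⟩
  have hl : ∀ x x' y, ψ x y ∈ range (ψ x') → ∀ᶠ u in 𝓝 y, invFun (ψ x') (ψ x u) =
      invFun (tt (c (s x') x') (r x')) (J.cm (c (s x)) (c (s x')) (tt (c (s x) x) (r x) u)) := by
    intro x x' y hy
    filter_upwards [(he x).continuous.continuousAt.preimage_mem_nhds
      ((he x').isOpen_range.mem_nhds hy)] with u ⟨v, hv⟩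
    have h2 : J.cm (c (s x)) (c (s x')) (tt (c (s x) x) (r x) u) = tt (c (s x') x') (r x') v := by
      change c (s x') (ψ x u) = _
      rw [← hv]
      exact (c (s x')).right_inv (hm x' v)
    rw [h2, ← hv, leftInverse_invFun (he x').injective, leftInverse_invFun (tt_inj _ (hr x'))]
  have hk : ∀ x x' y, ψ x y ∈ range (ψ x') →
      ContDiffAt ℝ ∞ (fun u => invFun (ψ x') (ψ x u)) y ∧
        0 < (fderiv ℝ (fun u => invFun (ψ x') (ψ x u)) y).det := by
    intro x x' y hy
    have h0 : (fun u => invFun (ψ x') (ψ x u)) =ᶠ[𝓝 y] _ := hl x x' y hy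
    obtain ⟨v, hv⟩ := hy
    have h2 : J.cm (c (s x)) (c (s x')) (tt (c (s x) x) (r x) y) = tt (c (s x') x') (r x') v := by
      change c (s x') (ψ x y) = _
      rw [← hv]
      exact (c (s x')).right_inv (hm x' v)
    have h3 := hc.cmp (s x) (s x') (ψ x y) ((c (s x)).map_target (hm x y))
      (hv ▸ (c (s x')).map_target (hm x' v))
    rw [show c (s x) (ψ x y) = _ from (c (s x)).right_inv (hm x y)] at h3
    have h4 := (hθ x').2 v
    rw [← h2] at h4
    have h5 := det_comp3 (tt_smooth _ _).contDiffAt h3.1 h4.1 (tt_det _ (hr x) y) h3.2 h4.2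
    exact ⟨h5.1.congr_of_eventuallyEq h0, by rw [h0.fderiv_eq]; exact h5.2⟩
  refine ⟨F ∪ T, ⟨ContinuousMap.id N, fun i => ψ i, fun _ => continuous_id,
    fun _ _ _ => Subsingleton.elim _ _, cov_id N, surjective_id,
    fun x y => ⟨fun h => ⟨1, h⟩, fun ⟨_, h⟩ => h⟩, fun i => he i,
    fun _ _ _ _ _ => Subsingleton.elim _ _, fun x => ?_, fun _ _ _ => toFinite _,
    fun i j _ y hy => (hk i j y hy).1.contDiffWithinAt, fun i j _ y hy => (hk i j y hy).2⟩,
    fun i => r i, Finset.subset_union_left, rfl, fun i => hr i, fun i => hm i, fun _ _ => rfl⟩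
  obtain ⟨i, hi, y, hy, h⟩ := mem_iUnion₂.1 (hT (mem_univ x))
  exact ⟨1, ⟨i, Finset.mem_union_right _ hi⟩, y, fun k => (norm_le_pi_norm y k).trans_lt
    (mem_ball_zero_iff.1 hy), h⟩

end Vale.Agent.P273SA

end
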